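import Vale.Agent.P011UV1.Ker

/-!
Transitivity, automorphisms and the existence of the vector representation.
-/

set_option autoImplicit false
set_option linter.all false

namespace Vale.Agent.P011UV1

open Matrix Sum Finset Vale.Agent.P183CH Vale.Agent.P011U Vale.Agent.P011UP

variable {n : ℕ} {K : Type} [Field K] {a b c : I n} {E : Subgroup (GL (I n) K)}

/-- the root subgroups of the root `a - b` and of its negative lie in `E` -/
def Rr (E : Subgroup (GL (I n) K)) (a b : I n) : Prop := ix a ≠ ix b ∧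
  (∀ t : K, ∃ g ∈ E, g.1 = 1 + t • Y K a b) ∧ ∀ t : K, ∃ g ∈ E, g.1 = 1 + t • Y K b a

theorem Rr.symm (h : Rr E a b) : Rr E b a := ⟨h.1.symm, h.2.2, h.2.1⟩

theorem Rr.swap (h : Rr E a b) : Rr E a.swap b.swap :=
  ⟨by simpa using h.1, fun t => by simpa [Y_swap] using h.2.2 (-t),
    fun t => by simpa [Y_swap] using h.2.1 (-t)⟩

theorem Rr.trans (h : Rr E a b) (h' : Rr E b c) (e : ix a ≠ ix c) : Rr E a c := by
  have k : ∀ {a b c : I n}, Rr E a b → Rr E b c → ix a ≠ ix c → ∀ t : K,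
      ∃ g ∈ E, g.1 = 1 + t • Y K a c := fun h h' e t => by
    obtain ⟨x, hx, e1⟩ := h.2.1 t
    obtain ⟨y, hy, e2⟩ := h'.2.1 1
    refine ⟨x * y * (y * x)⁻¹, mul_mem (mul_mem hx hy) (inv_mem (mul_mem hy hx)), ?_⟩
    rw [Units.val_mul, Units.mul_inv_eq_iff_eq_mul, Units.val_mul, Units.val_mul, e1, e2,
      X_comm h.1 h'.1 e, mul_one]
  exact ⟨e, k h h' e, k h'.symm h.symm e.symm⟩

theorem rr_all (hn : 2 ≤ n) (h : ∀ i, Rr E (pp i) (qq i)) (e : ix a ≠ ix b) : Rr E a b := by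
  have h1 : ∀ (d : ℕ) (i j : Fin (n + 1)), j.1 = i.1 + d + 1 → Rr E (inl i) (inl j) := fun d => by
    induction d with
    | zero =>
      intro i j c
      have := j.2
      have h2 := h i
      rwa [pp, qq, if_pos (by omega), dif_pos (by omega),
        show (⟨i.1 + 1, by omega⟩ : Fin (n + 1)) = j from Fin.ext c.symm] at h2
    | succ d ih =>
      intro i j c
      have := j.2
      have h2 := h i
      rw [pp, qq, if_pos (by omega), dif_pos (by omega)] at h2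
      exact h2.trans (ih _ j (by simp only; omega)) fun c' => by
        have := congrArg Fin.val c'
        simp only [ix_inl] at this
        omega
  have h2 : ∀ i j : Fin (n + 1), i ≠ j → Rr E (inl i) (inl j) := fun i j c => by
    rcases lt_or_gt_of_ne c with c | c
    · exact h1 (j.1 - i.1 - 1) i j (by have : i.1 < j.1 := c; omega)
    · exact (h1 (i.1 - j.1 - 1) j i (by have : j.1 < i.1 := c; omega)).symm
  have h3 : ∀ i, i ≠ Fin.last n → Rr E (inl i) (inr (Fin.last n)) := fun i c => by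
    have h4 := h (Fin.last n)
    rw [pp, qq, if_neg (by simp), dif_neg (by simp)] at h4
    by_cases c' : i = ⟨n - 1, by omega⟩
    · rwa [c']
    · exact (h2 i _ c').trans h4 c
  have h4 : ∀ i j : Fin (n + 1), i ≠ j → Rr E (inl i) (inr j) := fun i j c => by
    by_cases c1 : j = Fin.last n
    · exact c1 ▸ h3 i (c1 ▸ c)
    by_cases c2 : i = Fin.last n
    · exact c2 ▸ (h3 j c1).swap.symm
    · exact (h3 i c2).trans (h2 _ j (Ne.symm c1)).swap c
  rcases a with i | i <;> rcases b with j | j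
  exacts [h2 i j e, h4 i j e, (h4 j i e.symm).symm, (h2 i j e).swap]

theorem clear (h : ∀ a b, ix a ≠ ix b → Rr E a b) (z : I n) (u : I n → K) (h1 : u z = 1)
    (h2 : qf K n u = 0) : ∃ g ∈ E, g.1 *ᵥ u = ev K z ∧ g.1 *ᵥ ev K z.swap = ev K z.swap := by
  have key : ∀ s : Finset (I n), ∃ g ∈ E, g.1 *ᵥ ev K z.swap = ev K z.swap ∧ (g.1 *ᵥ u) z = 1 ∧
      qf K n (g.1 *ᵥ u) = 0 ∧ ∀ b ∈ s, ix b ≠ ix z → (g.1 *ᵥ u) b = 0 := fun s => by
    induction s using Finset.induction with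
    | empty => exact ⟨1, one_mem _, by simp, by simpa, by simpa, by simp⟩
    | insert b s _ ih =>
      obtain ⟨g, g1, g2, g3, g4, g5⟩ := ih
      by_cases c : ix b = ix z
      · exact ⟨g, g1, g2, g3, g4, forall_mem_insert .. |>.2 ⟨fun c' => absurd c c', g5⟩⟩
      obtain ⟨x, x1, x2⟩ := (h b z c).2.1 (-(g.1 *ᵥ u) b)
      refine ⟨x * g, mul_mem x1 g1, ?_⟩
      simp only [Units.val_mul, ← mulVec_mulVec, x2, g2, qf_X c, g4]
      generalize g.1 *ᵥ u = v at *
      simp only [X_mulVec]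
      refine ⟨by simp [ev_apply, ne_of_ix c, ne_swap], by simp [ev_apply, ne_of_ix c, ne_swap, g3],
        trivial, forall_mem_insert .. |>.2 ⟨fun _ => by simp [ev_apply, ne_of_ix c, g3],
          fun d hd c' => ?_⟩⟩
      by_cases c2 : d = b
      · simp [ev_apply, ne_of_ix c, g3, c2]
      · simp [ev_apply, ne_of_ix c', g5 d hd c', c2]
  obtain ⟨g, g1, g2, g3, g4, g5⟩ := key univ
  refine ⟨g, g1, ?_, g2⟩
  generalize g.1 *ᵥ u = v at *
  have e : v = ev K z + v z.swap • ev K z.swap := funext fun a => by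
    by_cases c : a = z
    · simp [c, ev_apply, g3, ne_swap]
    by_cases c' : a = z.swap
    · simp [c', ev_apply, (ne_swap z).symm]
    · simp [ev_apply, c, c', g5 a (mem_univ _) (ix_ne.2 ⟨c, c'⟩)]
  rw [e, qf_add_ev, qf_ev, swap_swap, ev_apply, if_pos rfl, zero_add, mul_one] at g4
  rw [e, g4, zero_smul, add_zero]

theorem tr_one (hn : 2 ≤ n) (h : ∀ a b, ix a ≠ ix b → Rr E a b) (z : I n) (u : I n → K)
    (h1 : u ≠ 0) (h2 : qf K n u = 0) : ∃ g ∈ E, g.1 *ᵥ u = ev K z := by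
  have k : ∀ (u : I n → K) b, ix z ≠ ix b → u b ≠ 0 → qf K n u = 0 → ∃ g ∈ E, g.1 *ᵥ u = ev K z :=
    fun u b c h1 h2 => by
      obtain ⟨x, x1, x2⟩ := (h z b c).2.1 ((1 - u z) / u b)
      obtain ⟨g, g1, g2, -⟩ := clear h z (x.1 *ᵥ u) (by
        simp [x2, X_mulVec, ev_apply, ne_of_ix c, h1]) (by rw [x2, qf_X c, h2])
      exact ⟨g * x, mul_mem g1 x1, by rw [Units.val_mul, ← mulVec_mulVec, g2]⟩
  obtain ⟨a, ha⟩ := Function.ne_iff.1 h1
  obtain ⟨b, c1, c2⟩ := exists_ix hn z a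
  by_cases c : u b = 0
  · obtain ⟨x, x1, x2⟩ := (h b a c2.symm).2.1 1
    obtain ⟨g, g1, g2⟩ := k (x.1 *ᵥ u) b c1 (by
      simpa [x2, X_mulVec, ev_apply, ne_of_ix c2, c, -one_smul] using ha) (by
        rw [x2, qf_X c2.symm, h2])
    exact ⟨g * x, mul_mem g1 x1, by rw [Units.val_mul, ← mulVec_mulVec, g2]⟩
  · exact k u b c1 c h2

theorem tr_two (hn : 2 ≤ n) (h : ∀ a b, ix a ≠ ix b → Rr E a b) (hE : E ≤ Og n K) (z : I n)
    {u u' : I n → K} (h1 : qf K n u = 0) (h2 : qf K n u' = 0)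
    (h3 : QuadraticMap.polar (qf K n) u u' = 1) :
    ∃ g ∈ E, g.1 *ᵥ ev K z = u ∧ g.1 *ᵥ ev K z.swap = u' := by
  obtain ⟨g, g1, g2⟩ := tr_one hn h z u (by rintro rfl; simp at h3) h1
  obtain ⟨x, x1, x2, x3⟩ := clear h z.swap (g.1 *ᵥ u') (by
    rw [← polar_ev z (g.1 *ᵥ u'), ← g2, polar_iso (hE g1), h3]) (by rw [hE g1, h2])
  rw [swap_swap] at x3
  refine ⟨(x * g)⁻¹, inv_mem (mul_mem x1 g1), ?_, ?_⟩
  · rw [← x3, ← g2, mulVec_mulVec, mulVec_mulVec, mul_assoc, ← Units.val_mul, Units.inv_mul,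
      one_mulVec]
  · rw [← x2, mulVec_mulVec, mulVec_mulVec, mul_assoc, ← Units.val_mul, Units.inv_mul, one_mulVec]

theorem dg_Y {d : I n → Kˣ} {μ s : Kˣ} (h : ∀ a, d a * d a.swap = μ) (e : d a = s * d b) :
    (dg d).1 * Y K a b = (s : K) • Y K a b * (dg d).1 := by
  have h1 := h a
  have h2 := h b
  have h3 : d b.swap = s * d a.swap := mul_left_cancel (a := d b) (by
    rw [h2, ← h1, e, mul_left_comm, mul_assoc])
  have k : ∀ x y, x = a ∧ y = b ∨ x = b.swap ∧ y = a.swap → (d x : K) = s * d y := by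
    rintro _ _ (⟨rfl, rfl⟩ | ⟨rfl, rfl⟩)
    exacts [congrArg Units.val e, congrArg Units.val h3]
  ext x y
  rw [dg_val, diagonal_mul, mul_diagonal, Matrix.smul_apply, smul_eq_mul]
  by_cases c : Y K a b x y = 0
  · simp [c]
  · rw [k x y (Y_supp c)]
    ring

theorem tau_Y (a b : I n) : (tau K).1 * Y K a b =
    Y K (Equiv.swap (inl (Fin.last n)) (inr (Fin.last n)) a)
      (Equiv.swap (inl (Fin.last n)) (inr (Fin.last n)) b) * (tau K).1 := by
  have k : ∀ a : I n, (tau K).1 *ᵥ ev K a =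
      (1 : K) • ev K (Equiv.swap (inl (Fin.last n)) (inr (Fin.last n)) a) := fun a => funext fun x => by
    simp [tau_mulVec, ev_apply, Equiv.swap_apply_eq_iff]
  have k' : Equiv.swap (inl (Fin.last n)) (inr (Fin.last n)) b.swap =
      (Equiv.swap (inl (Fin.last n)) (inr (Fin.last n)) b).swap := by
    rcases b with b | b <;> by_cases c : b = Fin.last n <;> simp [c, Equiv.swap_apply_def]
  have := conj_Y (K := K) qf_tau (k a) (k' ▸ k b.swap)
  rwa [mul_one, one_smul] at this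

variable {R : RS} {G : Type} [Group G] {Γ : RG R K G} {e : Fin R.r ≃ Fin (n + 1)}
  {ρ : G →* GL (I n) K}

theorem dg_cases (hT : Ty R (CartanMatrix.D (n + 1)) e) (hn : 4 ≤ n) {π : Equiv.Perm (Fin R.r)}
    (h : Dg R π) : π = 1 ∨ π = Equiv.swap (e.symm ⟨n - 1, by omega⟩) (e.symm (Fin.last n)) := by
  refine (perm_cases hn (e.permCongr π) fun i j => ?_).imp (fun c => ?_) fun c => ?_
  · rw [Equiv.permCongr_apply, Equiv.permCongr_apply, ← hT, h, hT, e.apply_symm_apply,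
      e.apply_symm_apply]
  · exact e.permCongr.injective (c.trans (Equiv.permCongr_refl e).symm)
  · exact e.permCongr.injective (c.trans (by simp [Equiv.permCongr_def, Equiv.symm_trans_swap_trans]))

namespace VA

variable (h : VA Γ e ρ)
include h

theorem rr (c : ix a ≠ ix b) : Rr ρ.range a b := rr_all (by have := h.hn; omega) (fun i => by
  obtain ⟨i, rfl⟩ := e.surjective i
  exact ⟨h.ixe i, fun t => ⟨_, ⟨_, rfl⟩, h.x i t⟩, fun t => ⟨_, ⟨_, rfl⟩, h.y i t⟩⟩) c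

theorem conj {G' : Type} [Group G'] {Γ' : RG R K G'} {ρ' : G' →* GL (I n) K} (h' : VA Γ' e ρ')
    (ψ : G →* G') (σ : K →+* K) (S : GL (I n) K) {g : G'} {c : Fin R.r → Kˣ}
    {π : Equiv.Perm (Fin R.r)} (h1 : ∀ i u, ψ (Γ.x (R.α i) u) = g * Γ'.x (R.α (π i)) (c i * σ u) * g⁻¹ ∧
      ψ (Γ.x (-R.α i) u) = g * Γ'.x (-R.α (π i)) ((c i)⁻¹ * σ u) * g⁻¹)
    (h2 : ∀ i, S.1 * Y K (pp (e i)) (qq (e i)) = (c i : K) • Y K (pp (e (π i))) (qq (e (π i))) * S.1 ∧
      S.1 * Y K (qq (e i)) (pp (e i)) =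
        (((c i)⁻¹ : Kˣ) : K) • Y K (qq (e (π i))) (pp (e (π i))) * S.1)
    (x : G) : ρ' (ψ x) = ρ' g * S * gm σ (ρ x) * (ρ' g * S)⁻¹ := by
  have k : ∀ (x y : GL (I n) K) (A B : Matrix (I n) (I n) K) (s u : K) {a b : I n},
      x.1 = 1 + u • Y K a b → y.1 = 1 + (s * σ u) • B → S.1 * Y K a b = s • B * S.1 →
      ρ' g * y * (ρ' g)⁻¹ = ρ' g * S * gm σ x * (ρ' g * S)⁻¹ := fun x y A B s u a b e1 e2 e3 => by
    have : S * gm σ x = y * S := Units.ext (by
      have : (gm σ x).1 = 1 + σ u • Y K a b := by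
        rw [← Y_map σ]
        ext p q
        simp [e1, one_apply, apply_ite σ]
      rw [Units.val_mul, Units.val_mul, this, e2, mul_add, add_mul, mul_smul_comm, e3, mul_one,
        one_mul, smul_mul_assoc, smul_mul_assoc, smul_smul, mul_comm s])
    rw [mul_assoc _ S, this]
    group
  refine h.ind (S := (ρ'.comp ψ).eqLocus ((MulAut.conj (ρ' g * S)).toMonoidHom.comp ((gm σ).comp ρ)))
    (fun i t => ?_) (fun i t => ?_) x
  · exact (congrArg ρ' (h1 i t).1).trans (by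
      rw [map_mul, map_mul, map_inv]
      exact k _ _ 0 _ _ _ (h.x i t) (h'.x _ _) (h2 i).1)
  · exact (congrArg ρ' (h1 i t).2).trans (by
      rw [map_mul, map_mul, map_inv]
      exact k _ _ 0 _ _ _ (h.y i t) (h'.y _ _) (h2 i).2)

theorem std (hn : 4 ≤ n) (ψ : G →* G) (σ : K →+* K) {g : G} {c : Fin R.r → Kˣ}
    {π : Equiv.Perm (Fin R.r)} (hs : Std Γ ψ σ g c π) :
    ∃ (d : I n → Kˣ) (μ : Kˣ) (b : Bool), (∀ a, d a * d a.swap = μ) ∧
      π = (if b then Equiv.swap (e.symm ⟨n - 1, by omega⟩) (e.symm (Fin.last n)) else 1) ∧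
      ∀ x, ρ (ψ x) = ρ g * dg d * (if b then tau K else 1) *
        gm σ (ρ x) * (ρ g * dg d * (if b then tau K else 1))⁻¹ := by
  obtain ⟨d, μ, h1, h2⟩ := exists_d (by omega) fun j => c (π.symm (e.symm j))
  have h3 : ∀ i, (dg d).1 * Y K (pp (e (π i))) (qq (e (π i))) =
      (c i : K) • Y K (pp (e (π i))) (qq (e (π i))) * (dg d).1 ∧
      (dg d).1 * Y K (qq (e (π i))) (pp (e (π i))) =
      (((c i)⁻¹ : Kˣ) : K) • Y K (qq (e (π i))) (pp (e (π i))) * (dg d).1 := fun i =>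
    ⟨dg_Y h1 (by simpa using h2 (e (π i))), dg_Y h1 (by simp [h2 (e (π i))])⟩
  rcases dg_cases h.ty hn hs.1 with rfl | hπ
  · exact ⟨d, μ, false, h1, rfl, fun x => by simpa using h.conj h ψ σ (dg d) hs.2 h3 x⟩
  · refine ⟨d, μ, true, h1, hπ, fun x => ?_⟩
    rw [if_pos rfl, mul_assoc (ρ g)]
    rw [← mul_assoc (ρ g)]
    have := h.conj h ψ σ (dg d * tau K) hs.2 (fun i => ?_) x
    · simpa only [mul_assoc] using this
    have h4 : e (π i) = Equiv.swap ⟨n - 1, by omega⟩ (Fin.last n) (e i) := by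
      rw [hπ, e.injective.map_swap, e.apply_symm_apply, e.apply_symm_apply]
    have h5 := swap_pq (by omega) (e i)
    rw [Units.val_mul, mul_assoc, mul_assoc, tau_Y, tau_Y, h5.1, h5.2, ← h4]
    simp only [← mul_assoc, (h3 i).1, (h3 i).2, and_self]

theorem dl (ψ : G →* G) (t : Kˣ) (hs : Std Γ ψ id 1 (fun i => if e i = 0 then t else 1) 1) (x : G) :
    ρ (ψ x) = del t * ρ x * (del t)⁻¹ := by
  have hn := h.hn
  have h1 : ∀ a : I n, (t ^ (if a = inl 0 then 1 else if a = inr 0 then -1 else 0 : ℤ)) *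
      t ^ (if a.swap = inl 0 then 1 else if a.swap = inr 0 then -1 else 0 : ℤ) = 1 := by
    rintro (a | a) <;> by_cases h : a = 0 <;> simp [h]
  have h2 : ∀ j : Fin (n + 1),
      t ^ (if pp j = inl 0 then 1 else if pp j = inr 0 then -1 else 0 : ℤ) = (if j = 0 then t else 1) *
      t ^ (if qq j = inl 0 then 1 else if qq j = inr 0 then -1 else 0 : ℤ) := fun j => by
    have := j.2
    unfold pp qq
    by_cases c : j.1 < n <;> simp only [c, if_true, if_false, dif_pos, dif_neg, not_false_eq_true,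
      inl.injEq, inr.injEq, reduceCtorEq, Fin.ext_iff, Fin.val_zero] <;> split_ifs <;>
      first | omega | simp
  have := h.conj h ψ (RingHom.id K) (del t) hs.2 (fun i => ⟨dg_Y h1 (h2 _),
    dg_Y h1 (eq_inv_mul_of_mul_eq (h2 _).symm)⟩) x
  rwa [map_one, one_mul] at this

theorem oms (s : Kˣ) : Std Γ (fun x => co h.ok (ma e) s * x * (co h.ok (ma e) s)⁻¹) id 1
    (fun i => if e i = 0 then s ^ 2 else 1) 1 := by
  refine ⟨fun _ _ => rfl, fun i u => ?_⟩
  dsimp only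
  rw [co_x h.ok (h.rok.simple i), co_x h.ok (h.rok.neg_mem (h.rok.simple i)), pw_neg, h.pw_ma]
  by_cases c : e i = 0 <;> simp [c, zpow_ofNat]

end VA

theorem VR.va {D : Chev} {e : Fin D.R.r ≃ Fin (n + 1)} {ρ : D.grp K →* GL (I n) K} (h : VR e ρ)
    (hT : Ty D.R (CartanMatrix.D (n + 1)) e) (hn : 3 ≤ n) : VA (GG D K) e ρ :=
  ⟨GG_ok, Chev.R_ok D, hT, hn, h.x, h.y⟩

theorem exists_vr {D : Chev} (hD : SC D) {e : Fin D.R.r ≃ Fin (n + 1)}
    (hT : Ty D.R (CartanMatrix.D (n + 1)) e) (hn : 3 ≤ n) (K : Type) [Field K] :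
    ∃ ρ : D.grp K →* GL (I n) K, VR e ρ ∧ ∀ a b, ∃ p : MvPolynomial (Fin D.n × Fin D.n) K,
      ∀ g : D.grp K, (ρ g).1 a b = MvPolynomial.eval (fun c => g.1.1 c.1 c.2) p := by
  have m := mn hn
  obtain ⟨ρ, h1, h2⟩ := exists_rep hD (e := fun i => Y ℤ (pp (e i)) (qq (e i)))
    (f := fun i => Y ℤ (qq (e i)) (pp (e i))) (μ := fun i => mu (e i))
    ⟨fun i => m.ee _, fun i => m.ff _, fun i => m.ef _, fun i j c => m.ef' _ _ (e.injective.ne c),
      fun i a b c j => (m.he _ a b c _).trans (congrArg _ (hT i j).symm),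
      fun i a b c j => (m.hf _ a b c _).trans (congrArg _ (hT i j).symm), fun i => m.ne _⟩ K
  exact ⟨ρ, ⟨fun i t => Y_map (Int.castRingHom K) _ _ ▸ (h2 i t).1,
    fun i t => Y_map (Int.castRingHom K) _ _ ▸ (h2 i t).2⟩, h1⟩

/-- **The vector representation.** -/
theorem do1 : DO1 := fun D hD n e hT hn K _ _ => by
  obtain ⟨ρ, h, hp⟩ := exists_vr hD hT (by omega) K
  have v := h.va hT (by omega)
  exact ⟨ρ,
    { vr := h
      pol := hp
      iso := v.iso
      gal := fun σ g => by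
        simpa using v.conj v (fm D σ) σ 1 (g := 1) (c := 1) (π := 1)
          (fun i u => by simp [fm_x]) (fun i => by simp) g
      std := fun ψ σ g c π hs => v.std hn ψ σ hs
      dl := v.dl
      oms := v.oms
      omr := v.om_val
      ker := fun g t => v.ker
      tr2 := fun u u' h1 h2 h3 => by
        obtain ⟨_, ⟨g, rfl⟩, c⟩ := tr_two (by omega) (fun a b => v.rr)
          (by rintro _ ⟨g, rfl⟩; exact v.iso g) (inl 0) h1 h2 h3
        exact ⟨g, c⟩
      st := fun g => ⟨fun c => v.st c.1 c.2, fun c => v.fix_LJ c⟩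
      schur := fun M hM => schur (by omega) fun a b c => by
        obtain ⟨_, ⟨g, rfl⟩, c'⟩ := (v.rr c).2.1 1
        simpa [c', mul_add, add_mul] using hM g
      mem := fun a b t c c' => by
        obtain ⟨_, ⟨g, rfl⟩, c⟩ := (v.rr (ix_ne.2 ⟨c, c'⟩)).2.1 t
        exact ⟨g, c⟩ }⟩

end Vale.Agent.P011UV1
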