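import Vale.Agent.P011UP.Std
import Vale.Agent.P011U.IF3

/-!
The vector representation of the groups of type `D`: definitions.
-/

set_option autoImplicit false
set_option linter.all false

namespace Vale.Agent.P011UV1

open Matrix Vale.Agent.P011L Vale.Agent.P183CH Vale.Agent.P011U

/-- the weights of the vector representation -/
abbrev I (n : ℕ) : Type := Fin (n + 1) ⊕ Fin (n + 1)

variable {n : ℕ}

/-- the simple root `i` is the difference of the weights `pp i` and `qq i` -/
def pp (i : Fin (n + 1)) : I n := if i.1 < n then Sum.inl i else Sum.inl ⟨n - 1, by omega⟩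

/-- the simple root `i` is the difference of the weights `pp i` and `qq i` -/
def qq (i : Fin (n + 1)) : I n := if h : i.1 < n then Sum.inl ⟨i.1 + 1, by omega⟩ else Sum.inr i

/-- the root vectors -/
def Y (R : Type) [CommRing R] (a b : I n) : Matrix (I n) (I n) R :=
  single a b 1 - single b.swap a.swap 1

variable (K : Type) [Field K]

/-- the split quadratic form -/
noncomputable def qf (n : ℕ) : QuadraticForm K (I n → K) :=
  ∑ i : Fin (n + 1), QuadraticMap.linMulLin (LinearMap.proj (Sum.inl i)) (LinearMap.proj (Sum.inr i))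

/-- the basis vectors -/
def ev (a : I n) : I n → K := Pi.single a 1

theorem pm_mul {J : Type} [Fintype J] [DecidableEq J] (s : Equiv.Perm J) (M : Matrix J J K) :
    (1 : Matrix J J K).submatrix s id * M = M.submatrix s id := by
  ext a b
  simp [one_apply, mul_apply]

/-- the reflection which exchanges the two last basis vectors -/
def tau : GL (I n) K :=
  let s : Equiv.Perm (I n) := Equiv.swap (Sum.inl (Fin.last n)) (Sum.inr (Fin.last n))
  ⟨(1 : Matrix _ _ K).submatrix s id, (1 : Matrix _ _ K).submatrix s id,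
    by rw [pm_mul]; ext a b; simp [s, one_apply], by rw [pm_mul]; ext a b; simp [s, one_apply]⟩

variable {K}

/-- diagonal matrices -/
def dg : (I n → Kˣ) →* GL (I n) K where
  toFun d := ⟨diagonal fun a => d a, diagonal fun a => (d a)⁻¹, by simp, by simp⟩
  map_one' := Units.ext (by simp)
  map_mul' d d' := Units.ext (by simp)

/-- the rotations of the first hyperbolic plane -/
def del : Kˣ →* GL (I n) K :=
  dg.comp (Pi.monoidHom fun a => zpowGroupHom
    (if a = Sum.inl 0 then 1 else if a = Sum.inr 0 then -1 else 0))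

variable {D : Chev} (e : Fin D.R.r ≃ Fin (n + 1))

/-- the symmetry of the diagram -/
noncomputable def sw : Equiv.Perm (Fin D.R.r) := Equiv.swap (e.symm ⟨n - 1, by omega⟩) (e.symm (Fin.last n))

/-- the coefficients of the diagonal automorphism given by `del t` -/
def dc (t : Kˣ) (i : Fin D.R.r) : Kˣ := if e i = 0 then t else 1

/-- twice the first fundamental coweight -/
def mm (i : Fin D.R.r) : ℤ := if (e i).1 + 1 < n then 2 else 1

/-- the cocharacter over `del (s ^ 2)` -/
noncomputable def om : Kˣ →* D.grp K := P011UP.co (GG_ok (D := D) (k := K)) (mm e)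

/-- `ρ` is the vector representation -/
structure VR (ρ : D.grp K →* GL (I n) K) : Prop where
  x : ∀ i t, (ρ ((GG D K).x (D.R.α i) t)).1 = 1 + t • Y K (pp (e i)) (qq (e i))
  y : ∀ i t, (ρ ((GG D K).x (-D.R.α i) t)).1 = 1 + t • Y K (qq (e i)) (pp (e i))

/-- the properties of the vector representation -/
structure VP (ρ : D.grp K →* GL (I n) K) : Prop where
  vr : VR e ρ
  pol : ∀ a b, ∃ p : MvPolynomial (Fin D.n × Fin D.n) K, ∀ g : D.grp K,
    (ρ g).1 a b = MvPolynomial.eval (fun c => g.1.1 c.1 c.2) p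
  iso : ∀ g v, qf K n ((ρ g).1 *ᵥ v) = qf K n v
  gal : ∀ (σ : K →+* K) g, ρ (fm D σ g) = gm σ (ρ g)
  std : ∀ (ψ : D.grp K →* D.grp K) (σ : K →+* K) g c π, Std (GG D K) ψ σ g c π →
    ∃ (d : I n → Kˣ) (μ : Kˣ) (b : Bool), (∀ a, d a * d a.swap = μ) ∧
      π = (if b then sw e else 1) ∧ ∀ h, ρ (ψ h) = ρ g * dg d * (if b then tau K else 1) *
        gm σ (ρ h) * (ρ g * dg d * (if b then tau K else 1))⁻¹
  dl : ∀ (ψ : D.grp K →* D.grp K) t, Std (GG D K) ψ id 1 (dc e t) 1 →
    ∀ h, ρ (ψ h) = del t * ρ h * (del t)⁻¹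
  oms : ∀ s : Kˣ, Std (GG D K) (fun h => om e s * h * (om e s)⁻¹) id 1 (dc e (s ^ 2)) 1
  omr : ∀ s, ρ (om e s) = del (s ^ 2)
  ker : ∀ h t, ρ h = del t → ∃ s, t = s ^ 2 ∧ h = om e s
  tr2 : ∀ u u', qf K n u = 0 → qf K n u' = 0 → QuadraticMap.polar (qf K n) u u' = 1 →
    ∃ h, (ρ h).1 *ᵥ ev K (Sum.inl 0) = u ∧ (ρ h).1 *ᵥ ev K (Sum.inr 0) = u'
  st : ∀ h, ((ρ h).1 *ᵥ ev K (Sum.inl 0) = ev K (Sum.inl 0) ∧
    (ρ h).1 *ᵥ ev K (Sum.inr 0) = ev K (Sum.inr 0)) ↔ h ∈ LJ (GG D K) {j | j ≠ e.symm 0}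
  schur : ∀ M : Matrix (I n) (I n) K, (∀ h, M * (ρ h).1 = (ρ h).1 * M) → ∃ c : K, M = c • 1
  mem : ∀ (a b : I n) (t : K), a ≠ b → a ≠ b.swap → ∃ h, (ρ h).1 = 1 + t • Y K a b

/-- The vector representation exists. -/
def DO1 : Prop := ∀ (D : Chev), SC D → ∀ (n : ℕ) (e : Fin D.R.r ≃ Fin (n + 1)),
  Ty D.R (CartanMatrix.D (n + 1)) e → 4 ≤ n → ∀ (K : Type) [Field K] [Infinite K],
    ∃ ρ : D.grp K →* GL (I n) K, VP e ρ

theorem qf_apply (v : I n → K) : qf K n v = ∑ i, v (Sum.inl i) * v (Sum.inr i) := by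
  simp [qf, QuadraticMap.sum_apply]

theorem polar_qf (u v : I n → K) : QuadraticMap.polar (qf K n) u v = ∑ a, u a * v a.swap := by
  simp only [QuadraticMap.polar, qf_apply, Fintype.sum_sum_type, ← Finset.sum_sub_distrib,
    ← Finset.sum_add_distrib, Pi.add_apply, Sum.swap_inl, Sum.swap_inr]
  exact Finset.sum_congr rfl fun _ _ => by ring

theorem polar_ev (a : I n) (v : I n → K) : QuadraticMap.polar (qf K n) (ev K a) v = v a.swap := by
  simp [polar_qf, ev, Pi.single_apply]

theorem qf_nd (v : I n → K) (h : ∀ w, QuadraticMap.polar (qf K n) v w = 0) : v = 0 :=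
  funext fun a => by
    have := h (ev K a.swap)
    rwa [QuadraticMap.polar_comm, polar_ev, Sum.swap_swap] at this

theorem dg_val (d : I n → Kˣ) : (dg d).1 = diagonal fun a => (d a : K) := rfl

theorem dg_mulVec (d : I n → Kˣ) (v : I n → K) (a : I n) : ((dg d).1 *ᵥ v) a = d a * v a :=
  mulVec_diagonal _ _ _

theorem qf_dg {d : I n → Kˣ} {μ : Kˣ} (h : ∀ a, d a * d a.swap = μ) (v : I n → K) :
    qf K n ((dg d).1 *ᵥ v) = μ * qf K n v := by
  simp only [qf_apply, dg_mulVec, Finset.mul_sum]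
  exact Finset.sum_congr rfl fun i _ => by
    rw [← h (Sum.inl i), Units.val_mul, Sum.swap_inl]
    ring

theorem del_eq (t : Kˣ) : (del t : GL (I n) K) =
    dg fun a => t ^ (if a = Sum.inl 0 then 1 else if a = Sum.inr 0 then -1 else 0 : ℤ) := rfl

theorem qf_del (t : Kˣ) (v : I n → K) : qf K n ((del t).1 *ᵥ v) = qf K n v := by
  rw [del_eq, qf_dg (μ := 1), Units.val_one, one_mul]
  rintro (a | a) <;> by_cases h : a = 0 <;> simp [h]

theorem tau_mulVec (v : I n → K) (a : I n) :
    ((tau K).1 *ᵥ v) a = v (Equiv.swap (Sum.inl (Fin.last n)) (Sum.inr (Fin.last n)) a) := by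
  simp [tau, mulVec, dotProduct, one_apply]

theorem qf_tau (v : I n → K) : qf K n ((tau K).1 *ᵥ v) = qf K n v := by
  simp only [qf_apply, tau_mulVec]
  refine Finset.sum_congr rfl fun i _ => ?_
  by_cases h : i = Fin.last n
  · simp [h, mul_comm]
  · rw [Equiv.swap_apply_of_ne_of_ne (by simpa) (by simp),
      Equiv.swap_apply_of_ne_of_ne (by simp) (by simpa)]

theorem tau_mul : (tau K : GL (I n) K) * tau K = 1 := Units.ext (tau K).val_inv

theorem gm_tau {F : Type} [Field F] (σ : K →+* F) : gm σ (tau K : GL (I n) K) = tau F :=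
  Units.ext (Matrix.ext fun a b => by simp [tau, one_apply])

theorem gm_dg {F : Type} [Field F] (σ : K →+* F) (d : I n → Kˣ) :
    gm σ (dg d) = dg fun a => Units.map σ.toMonoidHom (d a) :=
  Units.ext (diagonal_map (map_zero σ))

theorem gm_del {F : Type} [Field F] (σ : K →+* F) (t : Kˣ) :
    gm σ (del t : GL (I n) K) = del (Units.map σ.toMonoidHom t) := by
  rw [del_eq, gm_dg, del_eq]
  simp only [map_zpow]

end Vale.Agent.P011UV1
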