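import Vale.Agent.P011UJ.Rec
import Vale.Agent.P011UI.Iso

/-!
Representations of the simply connected group from minuscule generators.
-/

set_option autoImplicit false
set_option linter.all false

namespace Vale.Agent.P011UV1

open Matrix Vale.Agent.P183CH Vale.Agent.P183CH.Chev Vale.Agent.P011U LieSubalgebra Set
open Vale.Agent.P011UJ (LL eL fL Dm hw hw_eq Dm.lie Dm.eig graded half pow_eq ex_two rx)

attribute [local instance 100] LieRing.ofAssociativeRing

/-- Chevalley generators in a module with minuscule weights. -/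
structure Mn {I J : Type} [Fintype I] [DecidableEq I] [Fintype J] [DecidableEq J]
    (A : Matrix I I ℤ) (e f : I → Matrix J J ℤ) (μ : I → J → ℤ) : Prop where
  ee : ∀ i, e i * e i = 0
  ff : ∀ i, f i * f i = 0
  ef : ∀ i, e i * f i - f i * e i = diagonal (μ i)
  ef' : ∀ i j, i ≠ j → e i * f j = f j * e i
  he : ∀ i a b, e i a b ≠ 0 → ∀ j, μ j a = μ j b + A i j
  hf : ∀ i a b, f i a b ≠ 0 → ∀ j, μ j a = μ j b - A i j
  ne : ∀ i, e i ≠ 0

section
variable {D : Chev} {n : ℕ} {e f : Fin D.r → Matrix (Fin n) (Fin n) ℤ} {μ : Fin D.r → Fin n → ℤ}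
  {γ δ : D.Q} {M N : Matrix (Fin n) (Fin n) ℂ}

section
variable (h : Mn D.A e f μ)
include h

theorem dm_e (i : Fin D.r) : (eL e f i).1 ∈ Dm μ (D.α i) :=
  Sp.map _ fun a b c => funext fun j => by rw [Pi.add_apply, α_pr]; exact h.he i a b c j

theorem dm_f (i : Fin D.r) : (fL e f i).1 ∈ Dm μ (-D.α i) :=
  Sp.map _ fun a b c => funext fun j => by
    rw [Pi.add_apply, neg_vecMul, Pi.neg_apply, α_pr]; exact h.hf i a b c j

theorem h_val (i : Fin D.r) : (⁅eL e f i, fL e f i⁆ : LL e f).1 = diagonal fun a => (μ i a : ℂ) := by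
  show ct ℂ (e i) * ct ℂ (f i) - ct ℂ (f i) * ct ℂ (e i) = _
  rw [← map_mul, ← map_mul, ← map_sub, h.ef, RingHom.mapMatrix_apply, diagonal_map (map_zero _)]
  rfl

theorem lie_h {x : LL e f} (hx : x.1 ∈ Dm μ γ) (j : Fin D.r) :
    ⁅(⁅eL e f j, fL e f j⁆ : LL e f), x⁆ = (γ ᵥ* D.A) j • x := Subtype.ext (by
  rw [coe_bracket, h_val h, Dm.eig hx, Int.cast_smul_eq_zsmul]
  rfl)

theorem lin : LinearIndependent ℂ fun i => (⁅eL e f i, fL e f i⁆ : LL e f) := by
  refine Fintype.linearIndependent_iff.2 fun c hc => congrFun (eq_zero_of_mulVec_eq_zero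
    (M := (Int.castRingHom ℂ).mapMatrix D.A) (by
      rw [← RingHom.map_det]; exact Int.cast_ne_zero.2 det_ne) (funext fun i => ?_))
  have := congrArg (⁅·, eL e f i⁆) hc
  simp only [sum_lie, smul_lie, lie_h h (dm_e h i), α_pr, ← Int.cast_smul_eq_zsmul ℂ, smul_smul,
    ← Finset.sum_smul, mul_comm (c _), zero_lie] at this
  exact (smul_eq_zero.1 this).resolve_right fun c' =>
    h.ne i (ct_inj ((congrArg Subtype.val c').trans (map_zero (ct ℂ)).symm))

/-- the basis -/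
noncomputable def bas : LieAlgebra.Basis (Fin D.r)
    (lieSpan ℂ (LL e f) (range fun i => ⁅eL e f i, fL e f i⁆)) where
  A := D.A
  h i := ⁅eL e f i, fL e f i⁆
  e := eL e f
  f := fL e f
  cartan_eq_lieSpan := rfl
  span_ef := by
    refine Eq.trans (congrArg _ (Set.ext fun x => ?_)) lieSpan_lieSpan_coe_preimage
    exact or_congr (exists_congr fun _ => Subtype.ext_iff) (exists_congr fun _ => Subtype.ext_iff)
  linInd := lin h
  nondegen := D.b.nondegen
  sl2 i := ⟨(lin h).ne_zero i, rfl,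
    by rw [lie_h h (dm_e h i), α_pr, Chev.diag]; exact ofNat_zsmul _ _,
    by rw [lie_h h (dm_f h i), neg_vecMul, Pi.neg_apply, α_pr, Chev.diag, neg_smul]
       exact congrArg _ (ofNat_zsmul _ _)⟩
  lie_h_h i j := by
    rw [lie_h h (γ := D.α j + -D.α j) (Dm.lie (dm_e h j) (dm_f h j))]
    simp
  lie_h_e i j := by rw [lie_h h (dm_e h i), α_pr]
  lie_h_f i j := by rw [lie_h h (dm_f h i), neg_vecMul, Pi.neg_apply, α_pr]
  lie_e_f_ne i j c := Subtype.ext (by
    show ct ℂ (e i) * ct ℂ (f j) - ct ℂ (f j) * ct ℂ (e i) = 0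
    rw [← map_mul, ← map_mul, h.ef' i j c, sub_self])

theorem deg_zero {x : LL e f} (hx : x.1 ∈ Dm μ 0) :
    ∃ c : Fin D.r → ℂ, ∑ i, c i • ⁅eL e f i, fL e f i⁆ = x := by
  have h1 := (bas h).iSup_cartan_borelLower_borelUpper_eq_top
  obtain ⟨yc, hyc, yl, hyl, yu, hyu, rfl⟩ :
      ∃ᵉ (yc ∈ lieSpan ℂ (LL e f) (range fun i => ⁅eL e f i, fL e f i⁆))
        (yl ∈ lieSpan ℂ (LL e f) (range (bas h).f)) (yu ∈ lieSpan ℂ (LL e f) (range (bas h).e)),
        yc + yl + yu = x := by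
    have : x ∈ (lieSpan ℂ (LL e f) (range fun i => ⁅eL e f i, fL e f i⁆)).toLieSubmodule ⊔
        (bas h).borelLower ⊔ (bas h).borelUpper := by
      rw [show _ ⊔ (bas h).borelLower ⊔ (bas h).borelUpper = ⊤ by simpa using h1]
      trivial
    obtain ⟨_, h1, yu, hu, rfl⟩ := (LieSubmodule.mem_sup _ _ _).1 this
    obtain ⟨yc, hc, yl, hl, rfl⟩ := (LieSubmodule.mem_sup _ _ _).1 h1
    exact ⟨yc, hc, yl, hl, yu, hu, rfl⟩
  rw [← mem_toSubmodule, (bas h).coe_cartan_eq_span] at hyc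
  have h2 : yc.1 ∈ Dm μ 0 := by
    refine (Submodule.span_le (p := (Dm μ 0).comap (LL e f).toSubmodule.subtype)).2 ?_ hyc
    rintro _ ⟨i, rfl⟩
    exact add_neg_cancel (D.α i) ▸ Dm.lie (dm_e h i) (dm_f h i)
  have h3 := half (μ := μ) (-1) rfl (fun i => by rw [neg_one_smul]; exact dm_f h i) hyl
  have h4 := half (μ := μ) 1 rfl (fun i => by rw [one_smul]; exact dm_e h i) hyu
  have h5 : yl + yu = 0 := Subtype.ext (Matrix.ext fun a b => by
    by_contra c
    have h6 : (yl + yu).1 ∈ Dm μ 0 := by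
      rw [show yl + yu = yc + yl + yu - yc by abel]
      exact sub_mem hx h2
    have h7 := hw_eq (h6 a b c)
    simp only [Pi.zero_apply, Finset.sum_const_zero, mul_zero, add_zero] at h7
    refine c ?_
    show yl.1 a b + yu.1 a b = 0
    rw [not_not.1 (mt (h3 a b) (by omega)), not_not.1 (mt (h4 a b) (by omega)), add_zero])
  rw [add_assoc, h5, add_zero]
  exact (Submodule.mem_span_range_iff_exists_fun ℂ).1 hyc

theorem exists_e_mem (I : LieIdeal ℂ (LL e f)) (m : ℕ) : ∀ γ : D.Q, ∑ i, (γ i).natAbs = m →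
    ∀ x ∈ I, x ≠ 0 → x.1 ∈ Dm μ γ → ∃ i, eL e f i ∈ I := by
  induction m using Nat.strong_induction_on with
  | _ m ih =>
  intro γ hm x hx h0 hd
  rcases eq_or_ne γ 0 with rfl | hγ
  · obtain ⟨c, rfl⟩ := deg_zero h hd
    by_contra hn
    have : (Int.castRingHom ℂ).mapMatrix D.A *ᵥ c = 0 := funext fun i => by
      by_contra c'
      refine hn ⟨i, (I.toSubmodule.smul_mem_iff c').1 ?_⟩
      have := lie_mem_left ℂ _ I _ (eL e f i) hx
      rw [sum_lie] at this
      simp only [smul_lie, lie_h h (dm_e h i), α_pr, ← Int.cast_smul_eq_zsmul ℂ, smul_smul,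
        ← Finset.sum_smul, mul_comm (c _)] at this
      exact this
    rw [eq_zero_of_mulVec_eq_zero (by
      rw [← RingHom.map_det]; exact Int.cast_ne_zero.2 det_ne) this] at h0
    simp at h0
  obtain ⟨i, hi⟩ := exists_pos hγ
  have lt : ∀ s : ℤ, (s + γ i).natAbs < (γ i).natAbs →
      ∑ j, ((s • D.α i + γ) j).natAbs < m := fun s hs => hm ▸ Finset.sum_lt_sum (fun j _ => by
      rcases eq_or_ne j i with rfl | c
      · simpa [α] using hs.le
      · simp [α, c]) ⟨i, Finset.mem_univ _, by simpa [α] using hs⟩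
  have hh := lie_h h hd i
  rw [← Int.cast_smul_eq_zsmul ℂ] at hh
  rcases pos_and_pos_or_neg_and_neg_of_mul_pos hi with ⟨h1, h2⟩ | ⟨h1, h2⟩
  · by_cases c : ⁅fL e f i, x⁆ = 0
    · obtain ⟨k, hk⟩ := (⟨h0, by rw [neg_lie, neg_smul]; exact congrArg _ hh, c⟩ :
        ((bas h).sl2 i).symm.HasPrimitiveVectorWith x (-(((γ ᵥ* D.A) i : ℤ) : ℂ))).exists_nat
      have : -(γ ᵥ* D.A) i = k := by exact_mod_cast hk
      omega
    · exact ih _ (lt (-1) (by omega)) _ rfl _ (I.lie_mem hx) c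
        (by rw [neg_one_smul]; exact Dm.lie (dm_f h i) hd)
  · by_cases c : ⁅eL e f i, x⁆ = 0
    · obtain ⟨k, hk⟩ := (⟨h0, hh, c⟩ :
        ((bas h).sl2 i).HasPrimitiveVectorWith x (((γ ᵥ* D.A) i : ℤ) : ℂ)).exists_nat
      have : (γ ᵥ* D.A) i = k := by exact_mod_cast hk
      omega
    · exact ih _ (lt 1 (by omega)) _ rfl _ (I.lie_mem hx) c
        (by rw [one_smul]; exact Dm.lie (dm_e h i) hd)

theorem supp (x : LL e f) :
    x.1 ∈ Sp ℂ fun a b => ∃ γ : D.Q, (fun i => μ i a) = (fun i => μ i b) + γ ᵥ* D.A := by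
  obtain ⟨x, hx⟩ := x
  have m : ∀ a b c : Fin n, (∃ γ : D.Q, (fun i => μ i a) = (fun i => μ i b) + γ ᵥ* D.A) →
      (∃ γ : D.Q, (fun i => μ i b) = (fun i => μ i c) + γ ᵥ* D.A) →
      ∃ γ : D.Q, (fun i => μ i a) = (fun i => μ i c) + γ ᵥ* D.A :=
    fun a b c ⟨γ, e⟩ ⟨δ, e'⟩ => ⟨δ + γ, by rw [e, e', add_vecMul, add_assoc]⟩
  induction hx using lieSpan_induction with
  | mem u hu =>
    obtain ⟨i, rfl⟩ | ⟨i, rfl⟩ := hu
    exacts [Sp.mono (dm_e h i) fun _ _ c => ⟨_, c⟩, Sp.mono (dm_f h i) fun _ _ c => ⟨_, c⟩]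
  | zero => exact zero_mem _
  | add u v _ _ hu hv => exact add_mem hu hv
  | smul t u _ hu => exact Submodule.smul_mem _ t hu
  | lie u w _ _ hu hw => exact sub_mem (Sp.mul hu hw m) (Sp.mul hw hu m)

theorem simple : LieAlgebra.IsSimple ℂ (LL e f) where
  eq_bot_or_eq_top I := or_iff_not_imp_left.2 fun hI => by
    obtain ⟨x, hx, h0⟩ := (LieSubmodule.eq_bot_iff I).not.1 hI |> fun c => by
      push Not at c; exact c
    obtain ⟨a, b, hab⟩ : ∃ a b, x.1 a b ≠ 0 := by
      by_contra c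
      push Not at c
      exact h0 (Subtype.ext (Matrix.ext c))
    obtain ⟨γ, hγ⟩ := supp h x a b hab
    obtain ⟨_, ⟨y, hy, rfl⟩, h1, h2⟩ := graded (μ := μ)
      (W := I.toSubmodule.map (LL e f).toSubmodule.subtype) (by
        rintro j _ ⟨y, hy, rfl⟩
        exact ⟨_, I.lie_mem (x := ⁅eL e f j, fL e f j⁆) hy, by rw [← h_val h]; rfl⟩) ⟨x, hx, rfl⟩ γ
    obtain ⟨i, hi⟩ := exists_e_mem h I _ γ rfl y hy
      (fun c => hab ((h2 a b hγ).symm.trans (by rw [c]; rfl))) h1
    have h3 : ∀ j, eL e f j ∈ I := fun j => conn (fun j => eL e f j ∈ I) i j hi fun i j hi c => by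
      have := lie_mem_left ℂ _ I _ (eL e f j) (lie_mem_left ℂ _ I _ (fL e f i) hi)
      rw [lie_h h (dm_e h j), α_pr, ← Int.cast_smul_eq_zsmul ℂ] at this
      exact (I.toSubmodule.smul_mem_iff (Int.cast_ne_zero.2 c)).1 this
    have h4 : ∀ j, fL e f j ∈ I := fun j => by
      have := lie_mem_left ℂ _ I _ (fL e f j) (lie_mem_left ℂ _ I _ (fL e f j) (h3 j))
      rw [lie_h h (dm_f h j), neg_vecMul, Pi.neg_apply, α_pr, Chev.diag,
        ← Int.cast_smul_eq_zsmul ℂ] at this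
      exact (I.toSubmodule.smul_mem_iff (by norm_num)).1 this
    refine eq_top_iff.2 fun z _ => (lieSpan_le (K := (I : LieSubalgebra ℂ (LL e f)))).2 ?_
      ((bas h).span_ef.ge (mem_top z))
    rintro _ (⟨j, rfl⟩ | ⟨j, rfl⟩)
    exacts [h3 j, h4 j]
  non_abelian c := ((bas h).sl2 ⟨0, (R_ok D).pos⟩).h_ne_zero (c.trivial _ _)

/-- the datum -/
noncomputable def dat : Chev where
  n := n
  r := D.r
  L := LL e f
  simple := simple h
  H := _
  b := bas h
  φ := (LL e f).toSubmodule.subtype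
  inj := Subtype.val_injective
  lie _ _ := rfl
  μ := μ
  E i m := if m = 0 then 1 else if m = 1 then e i else 0
  F i m := if m = 0 then 1 else if m = 1 then f i else 0
  h_eq := h_val h
  e_pow i := pow_eq (h.ee i)
  f_pow i := pow_eq (h.ff i)

end

end

theorem exists_rep {D : Chev} (hD : SC D) {J : Type} [Fintype J] [DecidableEq J]
    {e f : Fin D.r → Matrix J J ℤ} {μ : Fin D.r → J → ℤ} (h : Mn D.A e f μ) (K : Type) [Field K] :
    ∃ ρ : D.grp K →* GL J K, (∀ a b, ∃ p : MvPolynomial (Fin D.n × Fin D.n) K, ∀ g : D.grp K,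
      (ρ g).1 a b = MvPolynomial.eval (fun c => g.1.1 c.1 c.2) p) ∧ ∀ i t,
      (ρ ((GG D K).x (D.R.α i) t)).1 = 1 + t • (e i).map (Int.cast : ℤ → K) ∧
      (ρ ((GG D K).x (-D.R.α i) t)).1 = 1 + t • (f i).map (Int.cast : ℤ → K) := by
  let η := (Fintype.equivFin J).symm
  have h' : Mn D.A (fun i => (e i).submatrix η η) (fun i => (f i).submatrix η η)
      fun i a => μ i (η a) :=
    { ee := fun i => by rw [submatrix_mul_equiv, h.ee]; rfl
      ff := fun i => by rw [submatrix_mul_equiv, h.ff]; rfl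
      ef := fun i => by
        rw [submatrix_mul_equiv, submatrix_mul_equiv]
        exact (congrArg (submatrix · η η) (h.ef i)).trans (submatrix_diagonal_equiv _ _)
      ef' := fun i j c => by rw [submatrix_mul_equiv, submatrix_mul_equiv, h.ef' _ _ c]
      he := fun i a b c j => h.he _ _ _ c _
      hf := fun i a b c j => h.hf _ _ _ c _
      ne := fun i c => h.ne i (Matrix.ext fun a b => by
        simpa using congrFun (congrFun c (η.symm a)) (η.symm b)) }
  obtain ⟨φ, h1, h2⟩ := P011UI.hom' (D := D) (D' := dat h') (Equiv.refl (Fin D.r)) hD (fun _ _ => rfl) K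
  have a : ∀ (M : Matrix J J ℤ) (t : K), submatrix (1 + t • (M.submatrix η η).map (Int.cast : ℤ → K) :
      Matrix _ _ K) η.symm η.symm = 1 + t • M.map (Int.cast : ℤ → K) := fun M t => by
    ext a b
    simp [one_apply]
  refine ⟨(rx (K := K) η.symm).toMonoidHom.comp (((dat h').grp K).subtype.comp φ),
    fun a b => h2 (η.symm a) (η.symm b), fun i t => ⟨?_, ?_⟩⟩
  · exact (congrArg (submatrix · η.symm η.symm) (((h1 _ i t).1 (congrArg Units.val
      (GG_e i t))).trans (ex_two (dp_e (D := dat h') i) t))).trans (a _ t)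
  · exact (congrArg (submatrix · η.symm η.symm) (((h1 _ i t).2 (congrArg Units.val
      (GG_f i t))).trans (ex_two (dp_f (D := dat h') i) t))).trans (a _ t)

end Vale.Agent.P011UV1
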