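import Vale.Agent.P011UV1.Lin
import Vale.Agent.P011UV1.Mk

/-!
The weights of the vector representation and the diagram of type `D`.
-/

set_option autoImplicit false
set_option linter.all false

namespace Vale.Agent.P011UV1

open Matrix Sum Finset Vale.Agent.P183CH Vale.Agent.P011U

variable {n : ℕ} {a b c d : I n} {i j : Fin (n + 1)}

/-- the weights -/
def mu (j : Fin (n + 1)) (a : I n) : ℤ := sg a (pp j) - sg a (qq j)

theorem mu_swap (j : Fin (n + 1)) (a : I n) : mu j a.swap = -mu j a := by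
  rw [mu, mu, sg_swap, sg_swap]
  ring

theorem ix_pq (hn : 1 ≤ n) (i : Fin (n + 1)) : ix (pp i) ≠ ix (qq i) := by
  have := i.2
  unfold pp qq
  split_ifs <;> simp [Fin.ext_iff] <;> omega

theorem mu_inl (hn : 1 ≤ n) (j i : Fin (n + 1)) : mu j (inl i) =
    (if j.1 = i.1 then (if i.1 < n then 1 else 0) else 0) - (if j.1 + 1 = i.1 then 1 else 0) +
      if j.1 = n then (if n ≤ i.1 + 1 then 1 else 0) else 0 := by
  have := i.2
  have := j.2
  unfold mu pp qq sg
  by_cases h : j.1 < n <;> simp only [h, if_true, if_false, dif_pos, dif_neg, not_false_eq_true,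
    swap_inl, swap_inr, inl.injEq, reduceCtorEq, Fin.ext_iff] <;> split_ifs <;> omega

theorem mu_spec (hn : 1 ≤ n) (j i : Fin (n + 1)) :
    (j.1 = i.1 ∧ i.1 < n ∨ j.1 = n ∧ n ≤ i.1 + 1) ∧ mu j (inl i) = 1 ∨
    j.1 + 1 = i.1 ∧ mu j (inl i) = -1 ∨
    (j.1 ≠ i.1 ∧ j.1 + 1 ≠ i.1 ∧ (j.1 ≠ n ∨ i.1 + 1 < n)) ∧ mu j (inl i) = 0 := by
  have := i.2
  have := j.2
  rw [mu_inl hn]
  split_ifs <;> omega

theorem D_spec (hn : 3 ≤ n) (i j : Fin (n + 1)) :
    i.1 = j.1 ∧ CartanMatrix.D (n + 1) i j = 2 ∨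
    (i.1 + 1 = j.1 ∧ j.1 < n ∨ j.1 + 1 = i.1 ∧ i.1 < n ∨ i.1 + 2 = n ∧ j.1 = n ∨
      j.1 + 2 = n ∧ i.1 = n) ∧ CartanMatrix.D (n + 1) i j = -1 ∨
    (i.1 ≠ j.1 ∧ (i.1 + 1 ≠ j.1 ∨ j.1 = n) ∧ (j.1 + 1 ≠ i.1 ∨ i.1 = n) ∧ (i.1 + 2 ≠ n ∨ j.1 ≠ n) ∧
      (j.1 + 2 ≠ n ∨ i.1 ≠ n)) ∧ CartanMatrix.D (n + 1) i j = 0 := by
  have := i.2
  have := j.2
  simp only [CartanMatrix.D, of_apply, Fin.ext_iff]
  split_ifs <;> omega

theorem cartan (hn : 3 ≤ n) (i j : Fin (n + 1)) :
    CartanMatrix.D (n + 1) i j = mu j (pp i) - mu j (qq i) := by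
  have := i.2
  have := j.2
  have h1 := D_spec hn i j
  unfold pp qq
  split_ifs with h
  · have h2 := mu_spec (by omega) j i
    have h3 := mu_spec (by omega) j ⟨i.1 + 1, by omega⟩
    dsimp only at h3
    omega
  · have h2 := mu_spec (by omega) j i
    have h3 := mu_spec (by omega) j ⟨n - 1, by omega⟩
    rw [show mu j (inr i) = -mu j (inl i) from mu_swap j (inl i)]
    dsimp only at h3
    omega

theorem cartan_symm (i j : Fin (n + 1)) :
    CartanMatrix.D (n + 1) i j = CartanMatrix.D (n + 1) j i := by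
  simp only [CartanMatrix.D, of_apply, Fin.ext_iff]
  split_ifs <;> omega

theorem ef_ne (hn : 2 ≤ n) (h : i ≠ j) : Y ℤ (pp i) (qq i) * Y ℤ (qq j) (pp j) =
    Y ℤ (qq j) (pp j) * Y ℤ (pp i) (qq i) := by
  have := i.2
  have := j.2
  have h' : i.1 ≠ j.1 := fun e => h (Fin.ext e)
  rw [Y_mul, Y_mul]
  unfold pp qq
  by_cases h1 : i.1 < n <;> by_cases h2 : j.1 < n <;> simp only [h1, h2, if_true, if_false, dif_pos,
    dif_neg, not_false_eq_true, swap_inl, swap_inr, inl.injEq, inr.injEq, reduceCtorEq,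
    Fin.ext_iff] <;> split_ifs <;> first | omega | rfl | skip
  · rw [show (⟨i.1 + 1, by omega⟩ : Fin (n + 1)) = j from Fin.ext (show i.1 + 1 = j.1 by omega)]
    simp
  · rw [show (⟨j.1 + 1, by omega⟩ : Fin (n + 1)) = i from Fin.ext (show j.1 + 1 = i.1 by omega)]
    simp

theorem mn (hn : 3 ≤ n) : Mn (CartanMatrix.D (n + 1)) (fun i => Y ℤ (pp i) (qq i))
    (fun i => Y ℤ (qq i) (pp i)) mu where
  ee i := Y_sq (ix_pq (by omega) i)
  ff i := Y_sq (ix_pq (by omega) i).symm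
  ef i := Y_br (ix_pq (by omega) i)
  ef' i j h := ef_ne (by omega) h
  he i a b h j := by
    rw [cartan hn]
    rcases Y_supp h with ⟨rfl, rfl⟩ | ⟨rfl, rfl⟩
    · ring
    · rw [mu_swap, mu_swap]
      ring
  hf i a b h j := by
    rw [cartan hn]
    rcases Y_supp h with ⟨rfl, rfl⟩ | ⟨rfl, rfl⟩
    · ring
    · rw [mu_swap, mu_swap]
      ring
  ne i h := by simpa [h] using Y_entry (R := ℤ) (ix_pq (by omega) i)

theorem prod_mu (hn : 1 ≤ n) {G : Type} [CommGroup G] (s : ℕ → G) (i : Fin (n + 1)) :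
    ∏ j : Fin (n + 1), s j ^ mu j (inl i) = (if i.1 < n then s i else 1) /
      (if 0 < i.1 then s (i - 1) else 1) * if n ≤ i.1 + 1 then s n else 1 := by
  have := i.2
  simp only [mu_inl hn, zpow_add, zpow_sub, prod_mul_distrib, prod_inv_distrib, pow_ite,
    zpow_zero, zpow_one]
  rw [Fin.prod_univ_eq_prod_range (fun j => if j = i.1 then (if i.1 < n then s j else 1) else 1),
    Fin.prod_univ_eq_prod_range (fun j => if j + 1 = i.1 then s j else 1),
    Fin.prod_univ_eq_prod_range (fun j => if j = n then (if n ≤ i.1 + 1 then s j else 1) else 1),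
    prod_ite_eq', prod_ite_eq', if_pos (mem_range.2 this), if_pos (mem_range.2 n.lt_succ_self),
    div_eq_mul_inv]
  congr 3
  split_ifs with h
  · rw [prod_eq_single (i.1 - 1) (fun j _ e => if_neg (by omega)) (by simp), if_pos (by omega)]
  · exact prod_eq_one fun j _ => if_neg (by omega)

theorem perm_cases (hn : 4 ≤ n) (σ : Equiv.Perm (Fin (n + 1)))
    (h : ∀ i j, CartanMatrix.D (n + 1) (σ i) (σ j) = CartanMatrix.D (n + 1) i j) :
    σ = 1 ∨ σ = Equiv.swap ⟨n - 1, by omega⟩ (Fin.last n) := by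
  let f : ℕ → ℕ := fun i => σ ⟨min i n, by omega⟩
  have f0 : ∀ i : Fin (n + 1), f i = σ i := fun i =>
    congrArg (fun x => (σ x).1) (Fin.ext (by have := i.2; simp only; omega))
  have f1 : ∀ i, f i ≤ n := fun i => Nat.lt_succ_iff.1 (σ _).2
  have f2 : ∀ i j, i ≤ n → j ≤ n → i ≠ j → f i ≠ f j := fun i j hi hj e e' => e (by
    have := congrArg Fin.val (σ.injective (Fin.ext e'))
    simp only at this
    omega)
  have f3 : ∀ i j, i ≤ n → j ≤ n → (i + 1 = j ∧ j < n ∨ i + 2 = n ∧ j = n) →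
      (f i + 1 = f j ∧ f j < n ∨ f j + 1 = f i ∧ f i < n ∨ f i + 2 = n ∧ f j = n ∨
        f j + 2 = n ∧ f i = n) := fun i j hi hj e => by
    have h0 := h ⟨min i n, by omega⟩ ⟨min j n, by omega⟩
    have h1 := D_spec (by omega) (σ ⟨min i n, by omega⟩) (σ ⟨min j n, by omega⟩)
    have h2 := D_spec (n := n) (by omega) ⟨min i n, by omega⟩ ⟨min j n, by omega⟩
    have h3 : CartanMatrix.D (n + 1) ⟨min i n, by omega⟩ ⟨min j n, by omega⟩ = -1 := by
      dsimp only at h2
      omega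
    rw [h0, h3] at h1
    simpa using h1
  have a1 := f3 (n - 3) (n - 2) (by omega) (by omega) (by omega)
  have a2 := f3 (n - 2) (n - 1) (by omega) (by omega) (by omega)
  have a3 := f3 (n - 2) n (by omega) (by omega) (by omega)
  have a4 := f3 (n - 4) (n - 3) (by omega) (by omega) (by omega)
  have b1 := f2 (n - 3) (n - 1) (by omega) (by omega) (by omega)
  have b2 := f2 (n - 3) n (by omega) (by omega) (by omega)
  have b3 := f2 (n - 1) n (by omega) (by omega) (by omega)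
  have b4 := f2 (n - 4) (n - 2) (by omega) (by omega) (by omega)
  have c1 : f (n - 2) = n - 2 := by omega
  have c2 : f (n - 3) = n - 3 := by omega
  have c3 : ∀ k, k + 3 ≤ n → f (n - 3 - k) = n - 3 - k ∧ f (n - 2 - k) = n - 2 - k := fun k => by
    induction k with
    | zero => exact fun _ => ⟨c2, c1⟩
    | succ k ih =>
      intro hk
      have a5 := f3 (n - 3 - (k + 1)) (n - 3 - k) (by omega) (by omega) (by omega)
      have b5 := f2 (n - 3 - (k + 1)) (n - 2 - k) (by omega) (by omega) (by omega)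
      have := ih (by omega)
      rw [show n - 2 - (k + 1) = n - 3 - k by omega]
      omega
  have c4 : ∀ i, i + 2 ≤ n → f i = i := fun i hi => by
    rcases hi.eq_or_lt with e | e
    · rwa [show n - 2 = i by omega] at c1
    · have := (c3 (n - 3 - i) (by omega)).1
      rwa [show n - 3 - (n - 3 - i) = i by omega] at this
  have c5 : ∀ i : Fin (n + 1), i.1 + 2 ≤ n ∨ i.1 = n - 1 ∨ i.1 = n := fun i => by
    have := i.2
    omega
  refine (show f n = n ∧ f (n - 1) = n - 1 ∨ f n = n - 1 ∧ f (n - 1) = n by omega).imp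
    (fun e => Equiv.ext fun i => Fin.ext ?_) fun e => Equiv.ext fun i => Fin.ext ?_
  · rw [← f0]
    rcases c5 i with e' | e' | e'
    · exact c4 _ e'
    · exact (congrArg f e').trans (e.2.trans e'.symm)
    · exact (congrArg f e').trans (e.1.trans e'.symm)
  · rw [← f0, Equiv.swap_apply_def]
    simp only [Fin.ext_iff, Fin.val_last]
    rcases c5 i with e' | e' | e'
    · rw [if_neg (by omega), if_neg (by omega), c4 _ e']
    · rw [if_pos e', e', e.2, Fin.val_last]
    · rw [if_neg (by omega), if_pos e', e', e.1]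

theorem swap_pq (hn : 2 ≤ n) (i : Fin (n + 1)) :
    Equiv.swap (inl (Fin.last n)) (inr (Fin.last n)) (pp i) =
      pp (Equiv.swap ⟨n - 1, by omega⟩ (Fin.last n) i) ∧
    Equiv.swap (inl (Fin.last n)) (inr (Fin.last n)) (qq i) =
      qq (Equiv.swap ⟨n - 1, by omega⟩ (Fin.last n) i) := by
  have := i.2
  have h1 : n - 1 < n := by omega
  have h2 : (⟨n - 1 + 1, by omega⟩ : Fin (n + 1)) = Fin.last n := Fin.ext (by simp; omega)
  have h3 : (⟨n - 1, by omega⟩ : Fin (n + 1)) ≠ Fin.last n := fun e => h1.ne (congrArg Fin.val e)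
  by_cases e1 : i = ⟨n - 1, by omega⟩
  · rw [e1, Equiv.swap_apply_left]
    simp [pp, qq, h1, h2, Equiv.swap_apply_def, h3]
  by_cases e2 : i = Fin.last n
  · rw [e2, Equiv.swap_apply_right]
    simp [pp, qq, h1, h2, Equiv.swap_apply_def, h3]
  rw [Equiv.swap_apply_of_ne_of_ne e1 e2]
  simp only [Fin.ext_iff, Fin.val_last] at e1 e2
  simp [pp, qq, show i.1 < n by omega, Equiv.swap_apply_def, Fin.ext_iff, e2,
    show i.1 + 1 ≠ n by omega]

theorem exists_d (hn : 1 ≤ n) {G : Type} [CommGroup G] (c : Fin (n + 1) → G) :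
    ∃ (d : I n → G) (μ : G), (∀ a, d a * d a.swap = μ) ∧ ∀ j, d (pp j) = c j * d (qq j) := by
  let c' : ℕ → G := fun i => c ⟨min i n, by omega⟩
  have c0 : ∀ i : Fin (n + 1), c' i = c i := fun i =>
    congrArg c (Fin.ext (by have := i.2; simp only; omega))
  refine ⟨Sum.elim (fun i => ∏ j ∈ Ico i.1 n, c' j) fun i => c' (n - 1) / c' n / ∏ j ∈ Ico i.1 n, c' j,
    c' (n - 1) / c' n, by rintro (a | a) <;> simp, fun j => ?_⟩
  have := j.2
  rw [← c0]
  unfold pp qq
  split_ifs with h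
  · exact prod_eq_prod_Ico_succ_bot h _
  · obtain ⟨m, rfl⟩ : ∃ m, n = m + 1 := ⟨n - 1, by omega⟩
    simp [show j.1 = m + 1 by omega]

end Vale.Agent.P011UV1
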