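import Vale.Agent.P011UV1.Rep

/-!
The kernel of the vector representation and the stabiliser of a hyperbolic pair.
-/

set_option autoImplicit false
set_option linter.all false

namespace Vale.Agent.P011UV1

open Matrix Sum Finset Vale.Agent.P183CH Vale.Agent.P011U Vale.Agent.P011UP Vale.Agent.P183A

variable {n : ℕ} {K : Type} [Field K] {R : RS} {G : Type} [Group G]
  {Γ : RG R K G} {e : Fin R.r ≃ Fin (n + 1)} {ρ : G →* GL (I n) K} {γ δ m : R.Q}

/-- twice the first fundamental coweight -/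
def ma (e : Fin R.r ≃ Fin (n + 1)) (i : Fin R.r) : ℤ := if (e i).1 + 1 < n then 2 else 1

theorem prod_e (hn : 1 ≤ n) {A : Type} [CommGroup A] (s : Fin R.r → A) : ∃ s' : ℕ → A,
    (∀ j, s' (e j) = s j) ∧ ∀ i : Fin (n + 1), ∏ j, s j ^ mu (e j) (inl i) =
      (if i.1 < n then s' i else 1) / (if 0 < i.1 then s' (i - 1) else 1) *
        if n ≤ i.1 + 1 then s' n else 1 := by
  have h : ∀ j, s (e.symm ⟨min (e j).1 n, by omega⟩) = s j := fun j => congrArg s
    (e.symm_apply_eq.2 (Fin.ext (by have := (e j).2; simp only; omega)))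
  refine ⟨fun i => s (e.symm ⟨min i n, by omega⟩), h, fun i => ?_⟩
  refine Eq.trans ?_ (prod_mu hn (fun i => s (e.symm ⟨min i n, by omega⟩)) i)
  rw [← e.prod_comp]
  simp only [h]

theorem ph_ma (hn : 2 ≤ n) (a : I n) : ph e a (ma e) = 2 * sg a (inl 0) := by
  have key : ∀ i, ph e (inl i) (ma e) = 2 * sg (inl i) (inl 0) := fun i => by
    obtain ⟨s, h1, h2⟩ := prod_e (e := e) (by omega) fun j => Multiplicative.ofAdd (ma e j)
    have h3 : ∀ j ≤ n, (s j).toAdd = if j + 1 < n then 2 else 1 := fun j hj => by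
      simpa [ma] using congrArg Multiplicative.toAdd (h1 (e.symm ⟨j, by omega⟩))
    have h4 := congrArg Multiplicative.toAdd (h2 i)
    have := i.2
    simp only [toAdd_prod, toAdd_zpow, toAdd_ofAdd, smul_eq_mul, mul_comm (mu _ _), toAdd_mul,
      toAdd_div, apply_ite Multiplicative.toAdd, toAdd_one] at h4
    rw [ph, h4, h3 _ le_rfl, h3 i (by omega), h3 (i - 1) (by omega)]
    simp only [sg, swap_inl, inl.injEq, reduceCtorEq, Fin.ext_iff, Fin.val_zero, if_false]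
    split_ifs <;> omega
  rcases a with i | i
  · exact key i
  · rw [← swap_inl, ph_swap, sg_swap, key, mul_neg]

theorem sg_zero (a : I n) :
    sg a (inl 0) = if a = inl 0 then 1 else if a = inr 0 then -1 else 0 := by
  simp only [sg, swap_inl]
  split_ifs with h h' <;> simp_all

theorem dom_pos (hR : R.Ok) (hm : Dom m ∅) (hγ : γ ∈ R.Φ) (h0 : 0 ≤ γ) : 0 < pw m γ :=
  lt_of_not_ge fun c => (hR.sign γ hγ).1 (funext fun i => hm.In h0 c i id)

namespace VA

variable (h : VA Γ e ρ)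
include h

theorem om_val (s : Kˣ) : ρ (co h.ok (ma e) s) = del (s ^ 2) := by
  have := h.hn
  rw [h.co_val, del_eq]
  simp only [ph_ma (by omega : 2 ≤ n), sg_zero, _root_.zpow_mul, zpow_ofNat]

theorem pw_ma (i : Fin R.r) : pw (ma e) (R.α i) = if e i = 0 then 2 else 0 := by
  have := h.hn
  have := (e i).2
  rw [h.pw_a, ← h.ph_pq, ph_ma (by omega), ph_ma (by omega)]
  unfold pp qq
  by_cases c : (e i).1 < n <;> simp only [c, if_true, if_false, dif_pos, dif_neg, not_false_eq_true,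
    sg, swap_inl, inl.injEq, inr.injEq, reduceCtorEq, Fin.ext_iff, Fin.val_zero] <;>
    split_ifs <;> omega

theorem dom : Dom (ma e) {j | j ≠ e.symm 0} :=
  ⟨fun i hi => by rw [h.pw_ma, if_neg fun c => hi (e.eq_symm_apply.2 c)],
    fun i hi => by rw [h.pw_ma, if_pos (e.eq_symm_apply.1 (not_not.1 hi))]; norm_num⟩

theorem rt (hγ : γ ∈ R.Φ) : ∃ (a b : I n) (N : Matrix (I n) (I n) K), N a b ≠ 0 ∧
    (∀ c d, N c d ≠ 0 → c ≠ d ∧ ∀ δ, ph e c δ - ph e d δ = pw δ γ) ∧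
    ∀ u, (ρ (Γ.x γ u)).1 = 1 + u • N := by
  obtain ⟨a, b, c, h1, h2, h3⟩ := h.root γ hγ
  refine ⟨a, b, (c : K) • Y K a b, by simp [Y_entry h1], fun x y hc => ?_,
    fun u => by rw [h3, smul_smul, mul_comm]⟩
  rcases Y_supp (right_ne_zero_of_mul hc) with ⟨rfl, rfl⟩ | ⟨rfl, rfl⟩
  · exact ⟨(ne_of_ix h1).1, h2⟩
  · exact ⟨by simp [ne_of_ix h1], fun δ => by rw [ph_swap, ph_swap, ← h2]; ring⟩

theorem fi_U (hm : Dom m ∅) {u : G} (hu : u ∈ Γ.U) : Fi (ph e · m) 1 ((ρ u).1 - 1) := by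
  refine h.ok.X_ind (P := fun u => Fi (ph e · m) 1 ((ρ u).1 - 1)) (fun a b c => by simp at c)
    (fun γ h1 h2 t a b c => ?_) (fun a _ b _ ha hb => ?_) hu
  · obtain ⟨-, -, N, -, h3, h4⟩ := h.rt h2
    rw [h4, add_sub_cancel_left] at c
    have := (h3 a b (right_ne_zero_of_mul c)).2 m
    have := dom_pos h.rok hm h2 h1
    dsimp only
    omega
  · rw [map_mul, Units.val_mul]
    exact ha.mul_sub zero_le_one hb

theorem inj_U {u : G} (hu : u ∈ Γ.U) (h1 : ρ u = 1) : u = 1 := by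
  classical
  obtain ⟨m, hm, -⟩ := exists_dom h.rok ∅
  choose! a b N h2 h3 h4 using fun γ => h.rt (γ := γ)
  obtain ⟨l, l1, l2⟩ := RS.exists_list (R := R) le_rfl
  obtain ⟨c, rfl⟩ := h.ok.exists_P h.rok RS.cl_Pos l1 l2 (RG.U_eq (Γ := Γ) ▸ hu)
  refine h.ok.P_zero (fun γ e => ((l2 γ).1 e).1) fun γ hγ => by_contra fun hc => ?_
  obtain ⟨γ, ⟨hγ, hc⟩, hmin⟩ := Set.exists_min_image {γ | γ ∈ l ∧ c γ ≠ 0} (pw m)
    (l.finite_toSet.subset fun _ e => e.1) ⟨γ, hγ, hc⟩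
  have p := (l2 γ).1 hγ
  have p0 := dom_pos h.rok hm p.1 p.2
  have key : ∀ s : List R.Q, s.Nodup → (∀ δ ∈ s, δ ∈ l) →
      Fi (ph e · m) (pw m γ) ((ρ (Γ.P s c)).1 - 1) ∧
      ((ρ (Γ.P s c)).1 - 1) (a γ) (b γ) = if γ ∈ s then c γ * N γ (a γ) (b γ) else 0 := fun s => by
    induction s with
    | nil => exact fun _ _ => ⟨fun a b c => by simp [RG.P] at c, by simp [RG.P]⟩
    | cons δ s ih =>
      intro s1 s2
      obtain ⟨i1, i2⟩ := ih s1.of_cons fun x hx => s2 x (List.mem_cons_of_mem _ hx)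
      have q := (l2 δ).1 (s2 δ List.mem_cons_self)
      have f : Fi (ph e · m) (pw m γ) (c δ • N δ) := fun x y hc => by
        have := (h3 δ q.1 x y (right_ne_zero_of_mul hc)).2 m
        have := hmin δ ⟨s2 δ List.mem_cons_self, left_ne_zero_of_mul hc⟩
        dsimp only
        omega
      rw [RG.P_cons, map_mul, Units.val_mul, h4 δ q.1]
      refine ⟨Fi.mul_sub p0.le (by rwa [add_sub_cancel_left]) i1, ?_⟩
      have z := mt ((f.mul i1) (a γ) (b γ)) (by
        have := (h3 γ p.1 _ _ (h2 γ p.1)).2 m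
        omega)
      rw [show ∀ A B : Matrix (I n) (I n) K, (1 + A) * B - 1 = A + (B - 1) + A * (B - 1) from
        fun A B => by noncomm_ring, Matrix.add_apply, Matrix.add_apply, not_not.1 z, i2, add_zero]
      by_cases d : γ = δ
      · subst d
        simp [(List.nodup_cons.1 s1).1]
      · have : N δ (a γ) (b γ) = 0 := by_contra fun c' => d (h.rok.pr_inj (funext fun j => by
          simpa [pw, RS.α_apply] using ((h3 γ p.1 _ _ (h2 γ p.1)).2 (R.α j)).symm.trans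
            ((h3 δ q.1 _ _ c').2 (R.α j))))
        simp [d, this]
  have := (key l l1 fun _ => id).2
  rw [h1, if_pos hγ] at this
  exact mul_ne_zero hc (h2 γ p.1) (by simpa using this.symm)

theorem mem_T {g : G} {d : I n → Kˣ} (hg : ρ g = dg d) : g ∈ Γ.T := by
  obtain ⟨m, hm, -⟩ := exists_dom h.rok ∅
  obtain ⟨u, hu, x, w, hx, v, hv, rfl⟩ := h.ok.bruhat h.rok g
  have hv' := RG.X_le_U (RS.cl_Inv w).1 hv
  have h1 : ρ x = ρ u⁻¹ * dg d * ρ v⁻¹ := by simp [← hg, mul_assoc]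
  have h2 : ∀ a γ, ph e a (w γ) = ph e a γ := fun a => by
    obtain ⟨b, c, h3, h4⟩ := h.mon hx a
    have h5 := congrFun h3 a
    rw [mulVec_ev, h1, Units.val_mul, Units.val_mul, dg_val,
      (h.fi_U hm (inv_mem hu)).entry (h.fi_U hm (inv_mem hv'))] at h5
    obtain rfl : a = b := by_contra fun c => (d a).ne_zero (by simpa [ev_apply, c] using h5)
    exact h4
  obtain rfl : w = 1 := LinearEquiv.ext fun γ => h.rok.pr_inj (funext fun j => by
    rw [← h.ph_pq, ← h.ph_pq, h2, h2]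
    rfl)
  have h3 := h.ok.rep_one h.rok hx
  obtain ⟨d', h4⟩ := h.T_val h3
  have h5 := mul_mem hu (h.ok.nm_T_X _ x h3 v hv')
  have h6 : ρ (u * (x * v * x⁻¹)) = dg (d * d'⁻¹) := by
    rw [map_mul dg, map_inv, ← hg, ← h4, ← map_inv, ← map_mul]
    simp [mul_assoc]
  have h7 := h.inj_U h5 (Units.ext (Matrix.ext fun a b => by
    have := h.fi_U hm h5 a a
    rw [h6, dg_val] at this ⊢
    by_cases c : a = b
    · exact c ▸ sub_eq_zero.1 (not_not.1 (mt this (by omega)))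
    · rw [diagonal_apply_ne _ c, Units.val_one, one_apply_ne c]))
  rwa [show u * x * v = u * (x * v * x⁻¹) * x by group, h7, one_mul]

theorem ker {g : G} {t : Kˣ} (hg : ρ g = del t) : ∃ s, t = s ^ 2 ∧ g = co h.ok (ma e) s := by
  have hn := h.hn
  obtain ⟨s, rfl⟩ := h.ok.exists_hT (h.mem_T hg)
  obtain ⟨s', h1, h2⟩ := prod_e (e := e) (by omega) s
  have h3 : ∀ i : Fin (n + 1), ∏ j, s j ^ mu (e j) (inl i) = if i.1 = 0 then t else 1 := fun i => by
    have := congrFun (diagonal_injective (congrArg Units.val ((h.hT_val s).symm.trans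
      (hg.trans (del_eq t))))) (inl i)
    refine (Units.ext this).trans ?_
    by_cases c : i = 0 <;> simp [c]
  simp only [h2] at h3
  have h4 : ∀ i, i + 1 < n → s' i = t := fun i hi => by
    have := h3 ⟨i, by omega⟩
    induction i with
    | zero => simpa [show 0 < n by omega, show ¬n ≤ 1 by omega] using this
    | succ i ih =>
      rw [← ih (by omega) (h3 ⟨i, by omega⟩)]
      simpa [show i + 1 < n by omega, show ¬n ≤ i + 1 + 1 by omega, div_eq_one] using this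
  have h5 := h3 ⟨n, by omega⟩
  have h6 := h3 ⟨n - 1, by omega⟩
  simp only [lt_irrefl, if_false, show 0 < n by omega, if_true, Nat.le_succ, show n ≠ 0 by omega,
    show n - 1 < n by omega, show 0 < n - 1 by omega, show n ≤ n - 1 + 1 by omega,
    show n - 1 ≠ 0 by omega, h4 (n - 1 - 1) (by omega), one_div, inv_mul_eq_one] at h5 h6
  have h7 : t = s' n ^ 2 := by
    rw [h5, div_mul_eq_mul_div, div_eq_one] at h6
    rw [← h6, sq]
  refine ⟨s' n, h7, (congrArg h.ok.hT (funext fun j => ?_)).trans (co_eq h.ok _).symm⟩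
  have := (e j).2
  rw [← h1]
  show _ = s' n ^ ma e j
  unfold ma
  split_ifs with c
  · rw [h4 _ c, h7, zpow_ofNat]
  · rcases (show (e j).1 = n ∨ (e j).1 = n - 1 by omega) with c | c <;> simp [c, h5]

theorem fix_U {u : G} (hu : u ∈ Γ.U) : ρ u ∈ Sb (ev K (inl 0)) := by
  have hn := h.hn
  refine (RG.X_le (K := (Sb (ev K (inl 0))).comap ρ) fun γ h1 h2 t => ?_) hu
  obtain ⟨-, -, N, -, h3, h4⟩ := h.rt h2
  show _ *ᵥ _ = _
  rw [h4, add_mulVec, one_mulVec, add_eq_left]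
  funext a
  rw [mulVec_ev]
  by_contra c
  obtain ⟨h5, h6⟩ := h3 a _ (right_ne_zero_of_mul c)
  have h7 := h.dom.nonneg h1
  rw [← h6, ph_ma (by omega), ph_ma (by omega), sg_self, sg_zero, if_neg h5] at h7
  split_ifs at h7 <;> omega

theorem fix_LJ {g : G} (hg : g ∈ LJ Γ {j | j ≠ e.symm 0}) :
    ρ g ∈ Sb (ev K (inl 0)) ⊓ Sb (ev K (inr 0)) := by
  have hn := h.hn
  rw [LJ_eq h.rok h.ok] at hg
  refine (Subgroup.closure_le ((Sb (ev K (inl 0)) ⊓ Sb (ev K (inr 0))).comap ρ)).2 ?_ hg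
  have k : ∀ (a b : I n) (t : K) (M : GL (I n) K), ix a ≠ 0 → ix b ≠ 0 → M.1 = 1 + t • Y K a b →
      M ∈ Sb (ev K (inl 0)) ⊓ Sb (ev K (inr 0)) := fun a b t M h1 h2 h3 => by
    have h4 := ne_of_ix (b := inl 0) h1
    have h5 := ne_of_ix (b := inl 0) h2
    constructor <;> show _ *ᵥ _ = _ <;> rw [h3, X_mulVec] <;> simp_all [ev_apply, swap_eq]
  rintro _ ⟨j, hj, t, c⟩
  have h1 : (e j).1 ≠ 0 := fun c => hj (e.eq_symm_apply.2 (Fin.ext c))
  have h2 : ix (pp (e j)) ≠ 0 ∧ ix (qq (e j)) ≠ 0 := by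
    unfold pp qq
    by_cases c : (e j).1 < n <;> simp only [c, if_true, if_false, dif_pos, dif_neg, ix_inl, ix_inr,
      not_false_eq_true, Ne, Fin.ext_iff, Fin.val_zero] <;> omega
  rcases c with rfl | rfl
  exacts [k _ _ _ _ h2.1 h2.2 (h.x j t), k _ _ _ _ h2.2 h2.1 (h.y j t)]

theorem st [Infinite K] {g : G} (h1 : ρ g ∈ Sb (ev K (inl 0))) (h2 : ρ g ∈ Sb (ev K (inr 0))) :
    g ∈ LJ Γ {j | j ≠ e.symm 0} := by
  have hn := h.hn
  have h3 : g ∈ PJ Γ {j | j ≠ e.symm 0} := by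
    obtain ⟨u, hu, x, w, hx, v, hv, rfl⟩ := h.ok.bruhat h.rok g
    have hv' := RG.X_le_U (RS.cl_Inv w).1 hv
    refine mul_mem (mul_mem (U_le_PJ hu) (GJ_le_PJ (h.ok.NJ_le h.rok (h.ok.rep_NJ h.rok hx
      (h.rok.mem_WJ_of_Inv hx.mem_W fun γ hγ => ⟨hγ.1, hγ.2.1, fun i hi => ?_⟩))))) (U_le_PJ hv')
    obtain ⟨b, c, h3, h4⟩ := h.mon hx (inl 0)
    have h5 : ρ x ∈ Sb (ev K (inl 0)) := by
      simpa [mul_assoc] using mul_mem (mul_mem (inv_mem (h.fix_U hu)) h1) (inv_mem (h.fix_U hv'))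
    obtain rfl : inl 0 = b := by_contra fun c' => by
      simpa [ev_apply, c'] using congrFun (h3.symm.trans h5) (inl 0)
    have h6 := h4 γ
    rw [ph_zero (by omega), ph_zero (by omega)] at h6
    rw [not_not.1 hi]
    exact le_antisymm (h6 ▸ hγ.2.2 _) (hγ.2.1 _)
  have h4 : ∀ t : Kˣ, del t * ρ g = ρ g * del t := fun t => Units.ext (ext_of_mulVec_single fun i => by
    generalize (Pi.single i 1 : I n → K) = v
    have k : ∀ v : I n → K, (del t).1 *ᵥ v = v + (((t : K) - 1) * v (inl 0)) • ev K (inl 0) +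
        ((((t⁻¹ : Kˣ) : K) - 1) * v (inr 0)) • ev K (inr 0) := fun v => funext fun a => by
      rw [del_eq, dg_mulVec]
      by_cases c : a = inl 0
      · simp [c, ev_apply, sub_mul]
      · by_cases c' : a = inr 0 <;> simp [c, c', ev_apply, sub_mul]
    have e1 := polar_iso (h.iso g) (ev K (inl 0)) v
    have e2 := polar_iso (h.iso g) (ev K (inr 0)) v
    rw [h1, polar_ev, polar_ev, swap_inl] at e1
    rw [h2, polar_ev, polar_ev, swap_inr] at e2
    rw [Units.val_mul, Units.val_mul, ← mulVec_mulVec, ← mulVec_mulVec, k, k, mulVec_add, mulVec_add,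
      mulVec_smul, mulVec_smul, h1, h2, e1, e2])
  obtain ⟨s, hs⟩ := exists_gen (K := K) (ma e)
  obtain ⟨u, hu, x, hx, rfl⟩ := (mem_PJ h.ok h.rok h.dom).1 h3
  have h5 : co h.ok (ma e) s * u * (co h.ok (ma e) s)⁻¹ * u⁻¹ =
      co h.ok (ma e) s * (u * x) * (co h.ok (ma e) s)⁻¹ * (u * x)⁻¹ := by
    rw [show co h.ok (ma e) s * (u * x) * (co h.ok (ma e) s)⁻¹ = co h.ok (ma e) s * u *
      (co h.ok (ma e) s)⁻¹ * (co h.ok (ma e) s * x * (co h.ok (ma e) s)⁻¹) by group,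
      co_GJ h.ok h.dom hx]
    group
  obtain rfl := cent_RJ h.ok h.rok h.dom hs hu (mul_inv_eq_one.1 (h.inj_U (RJ_le_U (mul_mem
    (h.ok.nm_T_X _ _ (co_mem h.ok s) u hu) (inv_mem hu))) (by
      rw [h5, map_mul, map_mul, map_mul, map_inv, map_inv, h.om_val, h4]
      group)))
  rw [one_mul] at h1 ⊢
  obtain ⟨l, hl, t, ht, rfl⟩ := (Nm.mem_sup' (h.ok.nm_T_X {γ | R.In {j | j ≠ e.symm 0} γ})).1
    ((sup_comm _ Γ.T).le hx)
  obtain ⟨r, rfl⟩ := h.ok.exists_hT ht
  have h6 : ρ (h.ok.hT r) ∈ Sb (ev K (inl 0)) := by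
    simpa using mul_mem (inv_mem (Subgroup.mem_inf.1 (h.fix_LJ hl)).1) h1
  have h7 : r (e.symm 0) = 1 := by
    obtain ⟨s', h8, h9⟩ := prod_e (e := e) (by omega) r
    have := congrFun h6 (inl 0)
    rw [h.hT_val, dg_mulVec, h9, ← h8] at *
    simpa [ev_apply, show 0 < n by omega, show ¬n ≤ 1 by omega] using this
  refine mul_mem hl ?_
  rw [← univ_prod_mulSingle r, ← Subgroup.mem_comap]
  refine prod_mem fun j _ => ?_
  rw [Subgroup.mem_comap, h.ok.hT_single]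
  by_cases c : j = e.symm 0
  · rw [c, h7, map_one]
    exact one_mem _
  · have p := fun t => RG.x_mem (Γ := Γ) (S := {γ | R.In {j | j ≠ e.symm 0} γ}) (h.rok.simple j)
      (RS.In_α c) t
    have q := fun t => RG.x_mem (Γ := Γ) (S := {γ | R.In {j | j ≠ e.symm 0} γ})
      (h.rok.neg_mem (h.rok.simple j)) (RS.In_α c).neg t
    rw [← mul_inv_eq_iff_eq_mul.2 (h.ok.sl j (r j))]
    exact mul_mem (mul_mem (mul_mem (p _) (q _)) (p _)) (inv_mem (mul_mem (mul_mem (p _) (q _)) (p _)))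

end VA

end Vale.Agent.P011UV1
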