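import Vale.Agent.P011UV1.Defs

/-!
The root vectors of the split orthogonal group.
-/

set_option autoImplicit false
set_option linter.all false

namespace Vale.Agent.P011UV1

open Matrix Sum

variable {n : ℕ} {a b c d : I n}

/-- the hyperbolic plane of a basis vector -/
def ix (a : I n) : Fin (n + 1) := Sum.elim id id a

@[simp] theorem ix_inl (i : Fin (n + 1)) : ix (inl i) = i := rfl

@[simp] theorem ix_inr (i : Fin (n + 1)) : ix (inr i) = i := rfl

@[simp] theorem ix_swap (a : I n) : ix a.swap = ix a := by cases a <;> rfl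

theorem ne_swap (a : I n) : a ≠ a.swap := by cases a <;> simp

theorem swap_inj : a.swap = b.swap ↔ a = b := swap_leftInverse.injective.eq_iff

theorem swap_eq : a.swap = b ↔ a = b.swap := by rw [← swap_inj, swap_swap]

theorem ix_ne : ix a ≠ ix b ↔ a ≠ b ∧ a ≠ b.swap := by cases a <;> cases b <;> simp

theorem ne_of_ix (h : ix a ≠ ix b) : a ≠ b ∧ b ≠ a ∧ a ≠ b.swap ∧ b ≠ a.swap ∧ a.swap ≠ b ∧
    b.swap ≠ a ∧ a.swap ≠ b.swap ∧ b.swap ≠ a.swap := by
  refine ⟨?_, ?_, ?_, ?_, ?_, ?_, ?_, ?_⟩ <;> intro e <;> have := congrArg ix e <;>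
    first | exact h (by simpa using this) | exact h (by simpa using this.symm)

theorem exists_ix (hn : 2 ≤ n) (a b : I n) : ∃ c : I n, ix a ≠ ix c ∧ ix b ≠ ix c := by
  by_contra h
  push Not at h
  have h0 := h (inl ⟨0, by omega⟩)
  have h1 := h (inl ⟨1, by omega⟩)
  have h2 := h (inl ⟨2, by omega⟩)
  simp only [ix_inl, Ne, Fin.ext_iff] at h0 h1 h2
  omega

/-- the scalar product of the weights -/
def sg (a b : I n) : ℤ := (if a = b then 1 else 0) - if a = b.swap then 1 else 0

theorem sg_swap (a b : I n) : sg a.swap b = -sg a b := by simp [sg, swap_inj, swap_eq]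

theorem sg_self (a : I n) : sg a a = 1 := by simp [sg, ne_swap]

theorem sg_ix (h : ix a ≠ ix b) : sg a b = 0 := by simp [sg, ix_ne.1 h]

section ring
variable {R : Type} [CommRing R]

theorem Y_apply (a b c d : I n) : Y R a b c d =
    (if a = c ∧ b = d then 1 else 0) - if b.swap = c ∧ a.swap = d then 1 else 0 := by
  simp [Y, single_apply]

theorem Y_map {S : Type} [CommRing S] (f : R →+* S) (a b : I n) : (Y R a b).map f = Y S a b := by
  ext c d
  simp [Y_apply, apply_ite f]

theorem Y_swap (a b : I n) : Y R b.swap a.swap = -Y R a b := by simp [Y]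

theorem Y_self (a : I n) : Y R a a.swap = 0 := by simp [Y]

theorem Y_entry (h : ix a ≠ ix b) : Y R a b a b = 1 := by simp [Y_apply, ne_of_ix h]

theorem Y_supp (h : Y R a b c d ≠ 0) : c = a ∧ d = b ∨ c = b.swap ∧ d = a.swap := by
  by_contra e
  refine h ?_
  rw [Y_apply, if_neg fun e' => e (.inl ⟨e'.1.symm, e'.2.symm⟩),
    if_neg fun e' => e (.inr ⟨e'.1.symm, e'.2.symm⟩), sub_self]

theorem sm (a b c d : I n) : (single a b 1 * single c d 1 : Matrix (I n) (I n) R) =
    if b = c then single a d 1 else 0 := by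
  split_ifs with h
  · rw [h, single_mul_single_same, mul_one]
  · exact single_mul_single_of_ne _ _ _ _ h _

theorem Y_mul (a b c d : I n) : Y R a b * Y R c d = (if b = c then single a d 1 else 0) -
    (if b = d.swap then single a c.swap 1 else 0) - (if a.swap = c then single b.swap d 1 else 0) +
    if a = d then single b.swap c.swap 1 else 0 := by
  simp only [Y, sub_mul, mul_sub, sm, swap_inj]
  abel

theorem Y_sq (h : ix a ≠ ix b) : Y R a b * Y R a b = 0 := by
  simp [Y_mul, ne_of_ix h, ne_swap, (ne_swap a).symm]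

theorem Y_opp (h : ix a ≠ ix b) : Y R a b * Y R b a = single a a 1 + single b.swap b.swap 1 := by
  simp [Y_mul, ne_of_ix h]

theorem Y_br (h : ix a ≠ ix b) : Y R a b * Y R b a - Y R b a * Y R a b =
    diagonal fun c => ((sg c a - sg c b : ℤ) : R) := by
  rw [Y_opp h, Y_opp h.symm]
  ext c d
  simp only [Matrix.sub_apply, Matrix.add_apply, single_apply, diagonal_apply, sg]
  by_cases e : c = d
  · subst e
    simp only [and_self, @eq_comm _ c]
    push_cast
    ring
  · have : ∀ x : I n, ¬(x = c ∧ x = d) := fun x h => e (h.1.symm.trans h.2)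
    simp [this, e]

theorem Y_three (h : ix a ≠ ix b) : Y R a b * Y R b a * Y R a b = Y R a b := by
  rw [Y_opp h]
  simp [Y, add_mul, mul_sub, sm, ne_of_ix h]

theorem X_comm (h1 : ix a ≠ ix b) (h2 : ix b ≠ ix c) (h3 : ix a ≠ ix c) (s t : R) :
    (1 + s • Y R a b) * (1 + t • Y R b c) =
      (1 + (s * t) • Y R a c) * ((1 + t • Y R b c) * (1 + s • Y R a b)) := by
  have e1 : Y R a b * Y R b c = Y R a c + Y R b c * Y R a b := by
    simp [Y_mul, ne_of_ix h1, ne_of_ix h2, ne_of_ix h3]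
    simp [Y]
  have e2 : Y R a c * Y R b c = 0 := by simp [Y_mul, ne_of_ix h1, ne_of_ix h2, ne_of_ix h3, ne_swap]
  have e3 : Y R a c * Y R a b = 0 := by
    simp [Y_mul, ne_of_ix h1, ne_of_ix h2, ne_of_ix h3, (ne_swap a).symm]
  simp only [add_mul, mul_add, one_mul, mul_one, smul_mul_assoc, mul_smul_comm, e1, e2, e3,
    ← mul_assoc, zero_mul, smul_zero]
  module

theorem X_add (h : ix a ≠ ix b) (s t : R) :
    (1 + s • Y R a b) * (1 + t • Y R a b) = 1 + (s + t) • Y R a b := by
  simp only [add_mul, mul_add, one_mul, mul_one, smul_mul_assoc, mul_smul_comm, Y_sq h, smul_zero]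
  module

theorem diag_Y {u : I n → R} {t : R} (h : u a = t) (h' : u b.swap = t) :
    diagonal u * Y R a b = t • Y R a b := by
  ext c d
  rw [diagonal_mul, Matrix.smul_apply, smul_eq_mul]
  by_cases e : Y R a b c d = 0
  · rw [e, mul_zero, mul_zero]
  · rcases Y_supp e with ⟨rfl, -⟩ | ⟨rfl, -⟩
    · rw [h]
    · rw [h']

theorem Y_diag {u : I n → R} {t : R} (h : u b = t) (h' : u a.swap = t) :
    Y R a b * diagonal u = t • Y R a b := by
  ext c d
  rw [mul_diagonal, Matrix.smul_apply, smul_eq_mul, mul_comm]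
  by_cases e : Y R a b c d = 0
  · rw [e, mul_zero, mul_zero]
  · rcases Y_supp e with ⟨-, rfl⟩ | ⟨-, rfl⟩
    · rw [h]
    · rw [h']

end ring

variable {K : Type} [Field K] {u v : I n → K}

theorem ev_apply (a b : I n) : ev K a b = if b = a then 1 else 0 := Pi.single_apply _ _ _

theorem mulVec_ev (M : Matrix (I n) (I n) K) (a b : I n) : (M *ᵥ ev K a) b = M b a := by
  simp [ev]

theorem Y_mulVec (a b : I n) (v : I n → K) :
    Y K a b *ᵥ v = v b • ev K a - v a.swap • ev K b.swap := by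
  funext c
  simp [Y, sub_mulVec, single_mulVec, ev_apply, Function.update_apply]

theorem X_mulVec (a b : I n) (t : K) (v : I n → K) :
    (1 + t • Y K a b) *ᵥ v = v + (t * v b) • ev K a - (t * v a.swap) • ev K b.swap := by
  rw [add_mulVec, one_mulVec, smul_mulVec, Y_mulVec]
  module

theorem qf_ev (a : I n) : qf K n (ev K a) = 0 := by
  cases a <;> simp [qf_apply, ev_apply]

theorem qf_add_ev (v : I n → K) (t : K) (a : I n) :
    qf K n (v + t • ev K a) = qf K n v + t * v a.swap := by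
  have := polar_ev (K := K) a v
  have h := QuadraticMap.polar_smul_left (qf K n) t (ev K a) v
  rw [this, QuadraticMap.polar, QuadraticMap.map_smul, qf_ev, add_comm] at h
  simp only [smul_eq_mul] at h
  linear_combination h

theorem qf_X (h : ix a ≠ ix b) (t : K) (v : I n → K) :
    qf K n ((1 + t • Y K a b) *ᵥ v) = qf K n v := by
  rw [X_mulVec, sub_eq_add_neg, ← neg_smul, qf_add_ev, qf_add_ev]
  simp [ev_apply, ne_of_ix h]
  ring

theorem polar_iso {M : Matrix (I n) (I n) K} (h : ∀ v, qf K n (M *ᵥ v) = qf K n v) (u v : I n → K) :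
    QuadraticMap.polar (qf K n) (M *ᵥ u) (M *ᵥ v) = QuadraticMap.polar (qf K n) u v := by
  simp only [QuadraticMap.polar, ← mulVec_add, h]

theorem conj_Y {M : Matrix (I n) (I n) K} (h : ∀ v, qf K n (M *ᵥ v) = qf K n v) {s t : K}
    (h1 : M *ᵥ ev K a = s • ev K c) (h2 : M *ᵥ ev K b.swap = t • ev K d.swap) :
    M * Y K a b = (s * t) • Y K c d * M := by
  refine ext_of_mulVec_single fun i => ?_
  generalize (Pi.single i 1 : I n → K) = v
  have e1 := polar_iso h (ev K a) v
  have e2 := polar_iso h (ev K b.swap) v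
  rw [h1, QuadraticMap.polar_smul_left, polar_ev, polar_ev] at e1
  rw [h2, QuadraticMap.polar_smul_left, polar_ev, polar_ev, swap_swap, swap_swap] at e2
  rw [← mulVec_mulVec, ← mulVec_mulVec, smul_mulVec, Y_mulVec, Y_mulVec, mulVec_sub, mulVec_smul,
    mulVec_smul, h1, h2, ← e1, ← e2]
  simp only [smul_eq_mul]
  module

/-- the monomial matrices -/
theorem W_eq (h : ix a ≠ ix b) (t : Kˣ) :
    (1 + (t : K) • Y K a b) * (1 + (-(t⁻¹ : Kˣ) : K) • Y K b a) * (1 + (t : K) • Y K a b) =
      1 - Y K a b * Y K b a - Y K b a * Y K a b + (t : K) • Y K a b -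
        ((t⁻¹ : Kˣ) : K) • Y K b a := by
  simp only [add_mul, mul_add, one_mul, mul_one, smul_mul_assoc, mul_smul_comm, Y_sq h, smul_zero,
    Y_three h, smul_add, smul_smul, mul_neg, neg_mul, Units.mul_inv, Units.inv_mul]
  module

theorem W_diag (h : ix a ≠ ix b) (t : Kˣ) :
    (1 + (t : K) • Y K a b) * (1 + (-(t⁻¹ : Kˣ) : K) • Y K b a) * (1 + (t : K) • Y K a b) =
      diagonal (fun c => ((t ^ (sg c a - sg c b) : Kˣ) : K)) *
        ((1 + (1 : K) • Y K a b) * (1 + (-1 : K) • Y K b a) * (1 + (1 : K) • Y K a b)) := by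
  have := W_eq (K := K) h 1
  simp only [inv_one, Units.val_one, one_smul] at this
  have e : ∀ c : I n, sg c.swap c = -1 := fun c => by rw [sg_swap, sg_self]
  simp only [one_smul]
  rw [W_eq h, this, mul_sub, mul_add, diag_Y (t := (t : K)) (by simp [sg_self, sg_ix h])
    (by simp [sg_swap, sg_self, sg_ix h.symm]), diag_Y (t := ((t⁻¹ : Kˣ) : K))
    (by simp [sg_self, sg_ix h.symm]) (by simp [sg_swap, sg_self, sg_ix h]), Y_opp h, Y_opp h.symm]
  congr 2
  ext c d
  rw [diagonal_mul]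
  by_cases e1 : ix c = ix a ∨ ix c = ix b
  · have : c = a ∨ c = a.swap ∨ c = b ∨ c = b.swap := by
      by_contra e2
      push Not at e2
      exact e1.elim (ix_ne.2 ⟨e2.1, e2.2.1⟩) (ix_ne.2 e2.2.2)
    rcases this with rfl | rfl | rfl | rfl <;>
      simp [single_apply, one_apply, ne_of_ix h, ne_swap, (ne_swap _).symm]
  · push Not at e1
    simp [sg_ix e1.1, sg_ix e1.2]

theorem W_ev (h : ix a ≠ ix b) (c : I n) : ∃ (d : I n) (s : Kˣ),
    ((1 + (1 : K) • Y K a b) * (1 + (-1 : K) • Y K b a) * (1 + (1 : K) • Y K a b)) *ᵥ ev K c =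
      (s : K) • ev K d ∧ (c = a ∧ d = b ∨ c = b ∧ d = a ∨ c = a.swap ∧ d = b.swap ∨
        c = b.swap ∧ d = a.swap ∨ c = d ∧ ix c ≠ ix a ∧ ix c ≠ ix b) := by
  simp only [← mulVec_mulVec, X_mulVec]
  by_cases e1 : ix c = ix a ∨ ix c = ix b
  · have : c = a ∨ c = a.swap ∨ c = b ∨ c = b.swap := by
      by_contra e2
      push Not at e2
      exact e1.elim (ix_ne.2 ⟨e2.1, e2.2.1⟩) (ix_ne.2 e2.2.2)
    rcases this with rfl | rfl | rfl | rfl
    · exact ⟨b, -1, by simp [ev_apply, ne_of_ix h, ne_swap, (ne_swap _).symm], by simp⟩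
    · exact ⟨b.swap, -1, by simp [ev_apply, ne_of_ix h, ne_swap, (ne_swap _).symm], by simp⟩
    · exact ⟨a, 1, by simp [ev_apply, ne_of_ix h, ne_swap, (ne_swap _).symm], by simp⟩
    · exact ⟨a.swap, 1, by simp [ev_apply, ne_of_ix h, ne_swap, (ne_swap _).symm], by simp⟩
  · push Not at e1
    exact ⟨c, 1, by simp [ev_apply, ne_of_ix e1.1, ne_of_ix e1.2], by simp [e1]⟩

theorem schur (hn : 2 ≤ n) {M : Matrix (I n) (I n) K}
    (h : ∀ a b, ix a ≠ ix b → M * Y K a b = Y K a b * M) : ∃ c : K, M = c • 1 := by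
  have key : ∀ a b c, ix a ≠ ix b → ix c ≠ ix b → M c a = if c = a then M b b else 0 :=
    fun a b c h1 h2 => by
      have := congrFun (congrArg (· *ᵥ ev K b) (h a b h1)) c
      simp only [← mulVec_mulVec, Y_mulVec, mulVec_sub, mulVec_smul] at this
      simp only [Pi.sub_apply, Pi.smul_apply, mulVec_ev] at this
      simpa [ev_apply, ne_of_ix h1, ne_of_ix h2] using this
  refine ⟨M (inl 0) (inl 0), Matrix.ext fun c a => ?_⟩
  obtain ⟨b, h1, h2⟩ := exists_ix hn a c
  obtain ⟨b', h3, h4⟩ := exists_ix hn b (inl 0)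
  have e1 := key b b' b h3 h3
  have e2 := key _ b' _ h4 h4
  rw [if_pos rfl] at e1 e2
  rw [key a b c h1 h2, e1, e2]
  simp [one_apply]

end Vale.Agent.P011UV1
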