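import Vale.Agent.P011UV1.Cmb
import Vale.Agent.P011UP.Par
import Vale.Agent.P011US.Sub

/-!
The vector representation on the torus, the monomial group and the root subgroups.
-/

set_option autoImplicit false
set_option linter.all false

namespace Vale.Agent.P011UV1

open Matrix Sum Finset Vale.Agent.P183CH Vale.Agent.P011U Vale.Agent.P011UP

variable {n : ℕ} {K : Type} [Field K]

section
variable {ht : I n → ℤ} {i j : ℤ} {M N : Matrix (I n) (I n) K}

/-- The height filtration. -/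
def Fi (ht : I n → ℤ) (j : ℤ) (M : Matrix (I n) (I n) K) : Prop :=
  ∀ a b, M a b ≠ 0 → ht b + j ≤ ht a

theorem Fi.mul (h : Fi ht i M) (h' : Fi ht j N) : Fi ht (i + j) (M * N) := fun a b e => by
  rw [Matrix.mul_apply] at e
  obtain ⟨c, -, hc⟩ := exists_ne_zero_of_sum_ne_zero e
  have := h _ _ (left_ne_zero_of_mul hc)
  have := h' _ _ (right_ne_zero_of_mul hc)
  omega

theorem Fi.add (h : Fi ht i M) (h' : Fi ht i N) : Fi ht i (M + N) := fun a b e => by
  by_cases c : M a b = 0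
  · exact h' a b fun c' => e (by rw [Matrix.add_apply, c, c', add_zero])
  · exact h a b c

theorem Fi.mono (h : Fi ht i M) (hj : j ≤ i) : Fi ht j M := fun a b e => by
  have := h a b e
  omega

theorem Fi.mul_sub (hi : 0 ≤ i) (h : Fi ht i (M - 1)) (h' : Fi ht i (N - 1)) :
    Fi ht i (M * N - 1) := by
  have : M * N - 1 = (M - 1) * (N - 1) + ((M - 1) + (N - 1)) := by noncomm_ring
  rw [this]
  exact ((h.mul h').mono (by omega)).add (h.add h')

theorem fi_diag (d : I n → K) : Fi ht 0 (diagonal d) := fun a b e => by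
  rw [show a = b from by_contra fun c => e (diagonal_apply_ne _ c), add_zero]

theorem Fi.entry (h : Fi ht 1 (M - 1)) (h' : Fi ht 1 (N - 1)) (d : I n → K) (a : I n) :
    (M * diagonal d * N) a a = d a := by
  have e : M * diagonal d * N = diagonal d + ((M - 1) * diagonal d * (N - 1) +
      ((M - 1) * diagonal d + diagonal d * (N - 1))) := by noncomm_ring
  have h1 := (((h.mul (fi_diag d)).mul h').mono (j := 1) (by omega)).add
    ((h.mul (fi_diag d)).add ((fi_diag d).mul h')) a a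
  rw [e, Matrix.add_apply, diagonal_apply_eq, not_not.1 (mt h1 (by omega)), add_zero]

end

variable (K n) in
/-- the orthogonal group -/
def Og : Subgroup (GL (I n) K) where
  carrier := {g | ∀ v, qf K n (g.1 *ᵥ v) = qf K n v}
  one_mem' v := by simp
  mul_mem' {a b} ha hb v := by rw [Units.val_mul, ← mulVec_mulVec, ha, hb]
  inv_mem' {a} ha v := by rw [← ha, mulVec_mulVec, Units.mul_inv, one_mulVec]

/-- the stabiliser of a vector -/
def Sb (v : I n → K) : Subgroup (GL (I n) K) where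
  carrier := {g | g.1 *ᵥ v = v}
  one_mem' := one_mulVec v
  mul_mem' {a b} ha hb := by
    rw [Set.mem_setOf_eq, Units.val_mul, ← mulVec_mulVec, hb, ha]
  inv_mem' {a} ha := by
    rw [Set.mem_setOf_eq]
    conv_lhs => rw [← ha, mulVec_mulVec, Units.inv_mul, one_mulVec]

variable {R : RS} {G : Type} [Group G]

/-- the vector representation of an abstract group -/
structure VA (Γ : RG R K G) (e : Fin R.r ≃ Fin (n + 1)) (ρ : G →* GL (I n) K) : Prop where
  ok : Γ.Ok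
  rok : R.Ok
  ty : Ty R (CartanMatrix.D (n + 1)) e
  hn : 3 ≤ n
  x : ∀ i t, (ρ (Γ.x (R.α i) t)).1 = 1 + t • Y K (pp (e i)) (qq (e i))
  y : ∀ i t, (ρ (Γ.x (-R.α i) t)).1 = 1 + t • Y K (qq (e i)) (pp (e i))

/-- the weights as linear forms on the root lattice -/
def ph (e : Fin R.r ≃ Fin (n + 1)) (a : I n) (δ : R.Q) : ℤ := ∑ j, δ j * mu (e j) a

variable {Γ : RG R K G} {e : Fin R.r ≃ Fin (n + 1)} {ρ : G →* GL (I n) K} {γ δ : R.Q}

theorem ph_swap (a : I n) (δ : R.Q) : ph e a.swap δ = -ph e a δ := by simp [ph, mu_swap]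

theorem ph_s (a : I n) (i : Fin R.r) (δ : R.Q) :
    ph e a (R.s i δ) = ph e a δ - R.pr δ i * mu (e i) a := by
  simp [ph, RS.s, sub_mul, RS.α_apply]

theorem ph_zero (hn : 2 ≤ n) (δ : R.Q) : ph e (inl 0) δ = δ (e.symm 0) := by
  rw [ph, sum_eq_single (e.symm 0) (fun j _ h => ?_) (by simp)]
  · have := mu_spec (n := n) (by omega) 0 0
    rw [e.apply_symm_apply, show mu 0 (inl 0) = 1 by simp at this; omega, mul_one]
  · have := mu_spec (n := n) (by omega) (e j) 0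
    have h' : (e j).1 ≠ 0 := fun c => h (e.eq_symm_apply.2 (Fin.ext c))
    rw [show mu (e j) (inl 0) = 0 by simp only [Fin.val_zero] at this; omega, mul_zero]

namespace VA

variable (h : VA Γ e ρ)
include h

theorem ixe (i : Fin R.r) : ix (pp (e i)) ≠ ix (qq (e i)) := ix_pq (by have := h.hn; omega) _

theorem symm (i j : Fin R.r) : R.A i j = R.A j i := by rw [h.ty, h.ty, cartan_symm]

theorem ph_pq (i : Fin R.r) (δ : R.Q) : ph e (pp (e i)) δ - ph e (qq (e i)) δ = R.pr δ i := by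
  rw [ph, ph, ← sum_sub_distrib, RS.pr_eq]
  exact sum_congr rfl fun j _ => by rw [h.symm, h.ty, cartan h.hn, mul_sub]

theorem pw_a (i : Fin R.r) (δ : R.Q) : pw δ (R.α i) = R.pr δ i := by
  rw [pw, RS.pr_eq]
  exact sum_congr rfl fun j _ => by rw [RS.pr_α, h.symm, mul_comm]

theorem ind {S : Subgroup G} (h1 : ∀ i t, Γ.x (R.α i) t ∈ S) (h2 : ∀ i t, Γ.x (-R.α i) t ∈ S)
    (g : G) : g ∈ S := (Subgroup.closure_le S).2 (by
  rintro _ ⟨i, t, rfl | rfl⟩
  exacts [h1 i t, h2 i t]) (h.ok.gen.ge (Subgroup.mem_top g))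

theorem iso (g : G) : ρ g ∈ Og n K := h.ind (S := (Og n K).comap ρ)
  (fun i t v => by rw [h.x, qf_X (h.ixe i)]) (fun i t v => by rw [h.y, qf_X (h.ixe i).symm]) g

theorem n_val (i : Fin R.r) : (ρ (Γ.n i)).1 = (1 + (1 : K) • Y K (pp (e i)) (qq (e i))) *
    (1 + (-1 : K) • Y K (qq (e i)) (pp (e i))) * (1 + (1 : K) • Y K (pp (e i)) (qq (e i))) := by
  rw [RG.n, map_mul, map_mul, Units.val_mul, Units.val_mul, h.x, h.y]

theorem h_val (i : Fin R.r) (t : Kˣ) : ρ (Γ.h i t) = dg fun a => t ^ mu (e i) a := by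
  refine mul_right_cancel (b := ρ (Γ.n i)) (Units.ext ?_)
  rw [← map_mul, ← h.ok.sl, map_mul, map_mul, Units.val_mul, Units.val_mul, Units.val_mul, h.x, h.y,
    h.n_val, W_diag (h.ixe i)]
  rfl

theorem hT_val (s : Fin R.r → Kˣ) : ρ (h.ok.hT s) = dg fun a => ∏ i, s i ^ mu (e i) a := by
  induction s using Pi.mulSingle_induction with
  | one => simp [← Pi.one_def]
  | mul s s' e1 e2 =>
    rw [map_mul, map_mul, e1, e2, ← map_mul]
    exact congrArg _ (funext fun a => by simp [mul_zpow, prod_mul_distrib])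
  | mulSingle i b =>
    rw [h.ok.hT_single, h.h_val]
    exact congrArg _ (funext fun a => by
      rw [prod_eq_single i (fun j _ c => by rw [Pi.mulSingle_eq_of_ne c, _root_.one_zpow]) (by simp),
        Pi.mulSingle_eq_same])

theorem co_val (m : R.Q) (t : Kˣ) : ρ (co h.ok m t) = dg fun a => t ^ ph e a m := by
  rw [co_eq, h.hT_val]
  simp only [← _root_.zpow_mul, P011UP.prod_zpow, ph]

theorem T_val {t : G} (ht : t ∈ Γ.T) : ∃ d, ρ t = dg d :=
  let ⟨s, c⟩ := h.ok.exists_hT ht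
  ⟨_, c ▸ h.hT_val s⟩

theorem mon {m : G} {w : R.Aut} (hm : Γ.Rep m w) (a : I n) : ∃ (b : I n) (c : Kˣ),
    (ρ m).1 *ᵥ ev K a = (c : K) • ev K b ∧ ∀ γ, ph e b (w γ) = ph e a γ := by
  obtain ⟨t, ht, l, rfl, rfl⟩ := h.ok.exists_nd h.rok hm
  obtain ⟨d, hd⟩ := h.T_val ht
  suffices ∃ (b : I n) (c : Kˣ), (ρ (Γ.nd l)).1 *ᵥ ev K a = (c : K) • ev K b ∧
      ∀ γ, ph e b (R.wd l γ) = ph e a γ by
    obtain ⟨b, c, h1, h2⟩ := this
    refine ⟨b, c * d b, ?_, h2⟩
    rw [map_mul, Units.val_mul, ← mulVec_mulVec, h1, hd, mulVec_smul, Units.val_mul, mul_smul]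
    exact congrArg _ (funext fun x => by
      rw [dg_mulVec, Pi.smul_apply, ev_apply, smul_eq_mul]
      split_ifs with c <;> simp [c])
  clear hm
  induction l with
  | nil => exact ⟨a, 1, by simp [RG.nd], fun _ => rfl⟩
  | cons i l ih =>
    obtain ⟨b, c, h1, h2⟩ := ih
    obtain ⟨b', c', h3, h4⟩ := W_ev (K := K) (h.ixe i) b
    refine ⟨b', c * c', by rw [RG.nd_cons, map_mul, Units.val_mul, ← mulVec_mulVec, h1, mulVec_smul,
      h.n_val, h3, Units.val_mul, mul_smul], fun γ => ?_⟩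
    rw [RS.wd_cons, RS.mul_app, h.rok.sE_apply, ph_s, ← h2, ← h.ph_pq]
    have h5 := h.ixe i
    rcases h4 with ⟨rfl, rfl⟩ | ⟨rfl, rfl⟩ | ⟨rfl, rfl⟩ | ⟨rfl, rfl⟩ | ⟨rfl, h6, h7⟩
    · simp [mu, sg_self, sg_ix h5.symm]
    · simp [mu, sg_self, sg_ix h5]
    · simp [mu_swap, ph_swap, mu, sg_swap, sg_self, sg_ix h5.symm]
      ring
    · simp [mu_swap, ph_swap, mu, sg_swap, sg_self, sg_ix h5]
      ring
    · simp [mu, sg_ix h6, sg_ix h7]

theorem root : ∀ γ ∈ R.Φ, ∃ (a b : I n) (c : Kˣ), ix a ≠ ix b ∧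
    (∀ δ, ph e a δ - ph e b δ = pw δ γ) ∧ ∀ u, (ρ (Γ.x γ u)).1 = 1 + (c * u) • Y K a b := by
  refine rt_ind h.rok (fun i => ⟨_, _, 1, h.ixe i, fun δ => by rw [h.ph_pq, h.pw_a],
    fun u => by rw [h.x, Units.val_one, one_mul]⟩) fun i γ hγ ⟨a, b, c, h1, h2, h3⟩ => ?_
  obtain ⟨a', s, h4, h5⟩ := h.mon (RG.rep_n i) a
  obtain ⟨b', t, h6, h7⟩ := h.mon (RG.rep_n i) b.swap
  obtain ⟨z, hz⟩ := h.ok.rep_conj h.rok (RG.rep_n i) hγ
  have h8 := conj_Y (b := b) (d := b'.swap) (h.iso (Γ.n i)) h4 (by rw [swap_swap]; exact h6)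
  refine ⟨a', b'.swap, s * t * c * z⁻¹, fun c => ?_, fun δ => ?_, fun u => ?_⟩
  · have e1 := polar_iso (h.iso (Γ.n i)) (ev K a) (ev K b.swap)
    have e2 : (ρ (Γ.n i)).1 *ᵥ ((t : K) • ev K a - (s : K) • ev K b.swap) =
        ((t : K) * s) • (ev K a' - ev K b') := by
      rw [mulVec_sub, mulVec_smul, mulVec_smul, h4, h6]
      module
    rcases not_and_or.1 (mt ix_ne.2 (not_not.2 (c.trans (ix_swap b')))) with c | c <;>
      obtain rfl := not_not.1 c
    · have := congrFun (congrArg ((ρ (Γ.n i))⁻¹.1 *ᵥ ·) e2) a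
      simp [mulVec_mulVec, ev_apply, ne_of_ix h1] at this
    · rw [h4, h6] at e1
      simp [polar_ev, ev_apply, ne_of_ix h1] at e1
  · rw [← h.rok.sE_sE i δ, h5, ph_swap, h7, ph_swap, neg_neg, h2, h.rok.sE_sE, h.rok.sE_eq, RS.s,
      sub_eq_add_neg γ, pw_add, ← neg_smul, pw_smul, h.pw_a]
    simp [pw, mul_sub, RS.α_apply]
    ring
  · rw [← h.rok.sE_apply, show Γ.x (R.sE i γ) u = Γ.x (R.sE i γ) (z * ((z⁻¹ : Kˣ) * u)) by simp,
      ← (hz _).1, map_mul, map_mul,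
      map_inv, Units.val_mul, Units.val_mul, h3, Units.mul_inv_eq_iff_eq_mul, mul_add, mul_smul_comm,
      h8, add_mul, smul_mul_assoc, smul_mul_assoc, smul_smul, mul_one, one_mul]
    congr 2
    simp
    ring

end VA

end Vale.Agent.P011UV1
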